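import Vale.Agent.P167.H662.Start4

/-!
# P167: the normalisations of START are positive
-/

namespace Vale.Agent.P167.H662

open MeasureTheory Finset Filter Vale.Agent.P145.FB
open Vale.Agent.P167.H825 Vale.Agent.P167.H632
open Vale.Agent.P167.H945 (pF pT Cmp cb FLL)

/-- In the all open configuration the tip is joined to infinity along the diagonal. -/
theorem diag_conn {R : ℤ} {ω : Cfg} (h : ∀ v : ℤ × ℤ, nm (v - (0, 0)) ≤ R → ω v = true) (n : ℕ)
    (hn : (n : ℤ) ≤ R + 1) :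
    CConn (Sl (0, 0)) {v | nm (v - (0, 0)) ≤ R} ω ((0, 0), (0, 0))
      (((n : ℤ), (n : ℤ)), ((n : ℤ), (n : ℤ))) := by
  induction n with
  | zero => exact Relation.ReflTransGen.refl
  | succ n ih =>
    have h1 := ih (by push_cast at hn; omega)
    have hnB : nm (((n : ℤ), (n : ℤ)) - ((0, 0) : ℤ × ℤ)) ≤ R := by
      rw [H632.nm_le]
      simp only [Prod.fst_sub, Prod.snd_sub, sub_zero]
      push_cast at hn
      omega
    have hev : Even ((n : ℤ) + n) := ⟨_, rfl⟩
    have hodd : ¬ Even ((n : ℤ) + (n + 1)) := by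
      rw [← add_assoc, Int.even_add_one, not_not]
      exact hev
    have s1 : CStep (Sl (0, 0)) {v | nm (v - (0, 0)) ≤ R} ω (((n : ℤ), (n : ℤ)), ((n : ℤ), (n : ℤ)))
        (((n : ℤ), (n : ℤ)), ((n : ℤ) + 1, (n : ℤ) + 1)) := by
      refine .cross hnB (h _ hnB) hev ⟨Or.inl rfl, Or.inl rfl, ?_⟩
      simp
    have s2 : CStep (Sl (0, 0)) {v | nm (v - (0, 0)) ≤ R} ω
        (((n : ℤ), (n : ℤ)), ((n : ℤ) + 1, (n : ℤ) + 1))
        (((n : ℤ), (n : ℤ) + 1), ((n : ℤ) + 1, (n : ℤ) + 1)) := by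
      have h10 := CStep.turn' (K := Sl (0, 0)) (B := {v | nm (v - (0, 0)) ≤ R}) (ω := ω)
        (e := Sum.inr ((n : ℤ), (n : ℤ))) (s := ((n : ℤ) + 1, (n : ℤ) + 1))
        (fun hm => by
          have h2 : (n : ℤ) = 0 - 1 := (inr_mem_Sl.1 hm).2
          omega) (Or.inl (by simp only [ls, hev, if_true]))
      simpa only [hdv, tlv, hev, if_true] using h10
    have s3 : CStep (Sl (0, 0)) {v | nm (v - (0, 0)) ≤ R} ω
        (((n : ℤ), (n : ℤ) + 1), ((n : ℤ) + 1, (n : ℤ) + 1))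
        (((n : ℤ) + 1, (n : ℤ) + 1), ((n : ℤ) + 1, (n : ℤ) + 1)) := by
      have h10 := CStep.turn' (K := Sl (0, 0)) (B := {v | nm (v - (0, 0)) ≤ R}) (ω := ω)
        (e := Sum.inl ((n : ℤ), (n : ℤ) + 1)) (s := ((n : ℤ) + 1, (n : ℤ) + 1))
        inl_notMem_Sl (Or.inl (by simp only [ls, hodd, if_false]))
      simpa only [hdv, tlv, hodd, if_false] using h10
    push_cast
    exact ((h1.tail s1).tail s2).tail s3

theorem allC_sub_SArm (R : ℤ) (hR : 0 ≤ R) : allC true (0, 0) R ⊆ SArm (0, 0) R := by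
  intro ω hω
  obtain ⟨m, rfl⟩ := Int.eq_ofNat_of_zero_le hR
  have h := diag_conn (R := m) (ω := ω) (fun v hv => hω v (mem_Icc_bl.2 hv)) (m + 1) (by push_cast; rfl)
  refine ⟨_, ?_, _, h⟩
  by_contra hcon
  rw [not_lt, H632.nm_le] at hcon
  simp only [Prod.fst_sub, Prod.snd_sub, sub_zero] at hcon
  push_cast at hcon
  omega

/-- **The normalisation of the tips is positive.** -/
theorem ztN_pos : ∀ᶠ n : ℕ in atTop, 0 < ztN n := by
  obtain ⟨c, hc, R0, h⟩ := tip_ge 2
  have := H871.fair_mu.prob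
  filter_upwards [eventually_ge_atTop (R0.toNat + 1)] with n hn
  have h1 := h (0, 0) (by simp) n n (by omega) (by push_cast; omega)
  refine lt_of_lt_of_le (mul_pos hc ?_) h1
  refine lt_of_lt_of_le ?_ (measureReal_mono (allC_sub_SArm n (by omega)))
  rw [allC_real]
  positivity

/-- **The normalisation of the flat points is positive.** -/
theorem zfN_pos : ∀ᶠ n : ℕ in atTop, 0 < zfN n := by
  filter_upwards [eventually_ge_atTop 1] with n hn
  exact H135.flat_pos (by omega)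

end Vale.Agent.P167.H662
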