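import Vale.Agent.P167.H825.Defs2A

/-!
# P167, block START: the statement with real `δ`
(in `H825.START` the variable `δ` is elaborated as a natural number)
-/

namespace Vale.Agent.P167.H662

open MeasureTheory Finset Filter
open Vale.Agent.P167.H825
open Vale.Agent.P167.BR (VD)
open Vale.Agent.P167.E6 (IsPolygon Encloses)

/-- **Block START** (NO5): the polygon with small holes. -/
def STARTR (zt zf : ℕ → ℝ) : Prop :=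
  ∀ (l : ℕ) [NeZero l] (p : ZMod l → ℤ × ℤ) (S₀ : Finset (ℤ × ℤ)), IsPolygon p → Encloses p S₀ →
  ∀ Q : Marks, Q.Ok → ∀ (κ B : ℝ), 0 < κ → ∀ ε : ℝ, 0 < ε → ∃ δ₀ : ℝ, 0 < δ₀ ∧
  ∀ δ : ℝ, 0 < δ → δ < δ₀ → ∃ c₀ : ℝ, 0 < c₀ ∧ ∀ᶠ n : ℕ in atTop,
    c₀ * (zt n ^ (l * (Q.m + 1)) * zf n) ≤ ∫ ω, (PW p Q n ⌊δ * (n : ℝ)⌋₊ 0).X ω ∂μ ∧
    ∀ c : Ed → ℝ, FlowIn (enl S₀ n) κ B n c →
      |∫ ω, (PW p Q n ⌊δ * (n : ℝ)⌋₊ c).X ω ∂μ -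
        (∫ ω, (PW p Q n ⌊δ * (n : ℝ)⌋₊ 0).X ω ∂μ) * VD (enl S₀ n) (bsite p Q n) (dv c)| ≤
        ε * ∫ ω, (PW p Q n ⌊δ * (n : ℝ)⌋₊ 0).X ω ∂μ

theorem STARTR.mono {zt zf zf' : ℕ → ℝ} (h : STARTR zt zf) (h0 : ∀ n, 0 ≤ zt n)
    (h1 : ∀ n, zf' n ≤ zf n) : STARTR zt zf' := by
  intro l _ p S₀ hp hE Q hQ κ B hκ ε hε
  obtain ⟨δ₀, hδ₀, h2⟩ := h l p S₀ hp hE Q hQ κ B hκ ε hε
  refine ⟨δ₀, hδ₀, fun δ hδ hδ' => ?_⟩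
  obtain ⟨c₀, hc₀, h3⟩ := h2 δ hδ hδ'
  refine ⟨c₀, hc₀, ?_⟩
  filter_upwards [h3] with n hn
  refine ⟨le_trans ?_ hn.1, hn.2⟩
  have := h0 n
  have := h1 n
  gcongr

end Vale.Agent.P167.H662
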