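import Vale.Agent.P167.H662.Dir
import Vale.Agent.P167.H825.Defs2A

/-!
# P167, block START: exact statements of the pieces (definitions only)
-/

namespace Vale.Agent.P167.H662

open MeasureTheory Finset Filter Vale.Agent.P145.FB Vale.Agent.P153 Vale.Agent.P153.Topo
  Vale.Agent.P167.H871 Vale.Agent.P167.H632
open Vale.Agent.P167.H166 (bxx mem_bxx)
open Vale.Agent.P167.H825
open Vale.Agent.P167.BR (VD)
open Vale.Agent.P167.E6 (IsPolygon Encloses dir)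

section poly

variable {l : ℕ} (p : ZMod l → ℤ × ℤ) (Q : Marks)

/-- The centre of the hole before the wall `x`. -/
noncomputable def hsite (n : ℕ) (x : Fin l × Fin (Q.m + 1)) : ℤ × ℤ :=
  (n : ℤ) • p (x.1 : ℕ) + (⌊Q.θ x.1 x.2 * n⌋₊ : ℤ) • dir (pdir p x.1)

/-- The start (zero tip) of the wall `x`. -/
noncomputable def tsite (n d : ℕ) (x : Fin l × Fin (Q.m + 1)) : ℤ × ℤ :=
  (n : ℤ) • p (x.1 : ℕ) + (rnd ((n : ℤ) • p (x.1 : ℕ)) (bsite p Q n) (⌊Q.θ x.1 x.2 * n⌋₊ + d) : ℤ) •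
    dir (pdir p x.1)

/-- The whole side `i` as a wall, with the phases of the walls `pwall`. -/
noncomputable def fwall (n : ℕ) (i : ℕ) : Wall :=
  sideWall ((n : ℤ) • p i) (pdir p i) 0 n
    (Real.pi / 12 * ptau p i + if i = 0 then Real.pi / 3 else 0)
    (if i = 0 then some ⌊Q.tp * n⌋₊ else none)

/-- The closed cut polygon, and a flow. -/
noncomputable def PF (n : ℕ) (c : Ed → ℝ) : WC (Fin l) := ⟨fun i => fwall p Q n i, c⟩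

end poly

/-- **[SYM]** symmetries of the tip events and of the flat events, gluing of a tip with other
events of the same colour. -/
structure SYM : Prop where
  tip_le : ∀ (r : Fin 4) (z : Pt) (R : ℤ), μ.real (TipD r z (R + 1)) ≤ μ.real (TipOk 0 R)
  tip_ge : ∀ (r : Fin 4) (z : Pt) (R : ℤ), μ.real (TipOk 0 (R + 1)) ≤ μ.real (TipD r z R)
  flat_le : ∀ (r : Fin 4) (z : Pt) (R : ℤ), μ.real (FlatD r z (R + 1)) ≤ μ.real (FlatD 2 0 R)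
  flat_ge : ∀ (r : Fin 4) (z : Pt) (R : ℤ), μ.real (FlatD 2 0 (R + 1)) ≤ μ.real (FlatD r z R)
  glue : ∀ Λ : ℕ, ∃ c : ℝ, 0 < c ∧ ∃ R0 : ℤ, ∀ (r : Fin 4) (z : Pt) (R L : ℤ), R0 ≤ R →
    L + 1 ≤ Λ * R → ∀ (F : Finset Pt) (G : Set Mk), Dep F G → IncC (col z) G →
      c * (μ.real (TipD r z R) * μ.real G) ≤ μ.real (TipD r z L ∩ G)
  flat_scale : ∀ Λ : ℕ, ∃ c : ℝ, 0 < c ∧ ∃ R0 : ℤ, ∀ R L : ℤ, R0 ≤ R → L + 1 ≤ Λ * R →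
    c * μ.real (FlatD 2 0 R) ≤ μ.real (FlatD 2 0 L)

/-- **[MB]** the upper bound for the polygon with holes and for the closed polygon, uniformly in the
size of the holes, on a local event `G` away from the tips and the base point. -/
def MB : Prop :=
  ∀ (l : ℕ) [NeZero l] (p : ZMod l → ℤ × ℤ) (S₀ : Finset (ℤ × ℤ)), IsPolygon p → Encloses p S₀ →
  ∀ Q : Marks, Q.Ok → ∀ (κ B κ2 : ℝ), 0 < κ → 0 < κ2 → ∃ κ1 : ℝ, 0 < κ1 ∧ κ1 ≤ κ2 ∧ ∃ δ₁ : ℝ, 0 < δ₁ ∧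
  ∃ M : ℝ, 0 < M ∧ ∀ δ : ℝ, 0 < δ → δ < δ₁ →
  ∀ᶠ n : ℕ in atTop, ∀ c : Ed → ℝ, FlowIn (enl S₀ n) κ B n c →
    ∀ (F : Finset Pt) (G : Set Mk), Dep F G → Disjoint F (bxx (bsite p Q n) ⌊κ1 * n⌋) →
      (∫ ω in G, |(PF p Q n c).X ω| ∂μ ≤
        M * (μ.real G) ^ (1 / 4 : ℝ) * μ.real (FlatD (pdir p 0) (bsite p Q n) ⌊κ1 * n⌋)) ∧
      ((∀ x, Disjoint F (bxx (tsite p Q n ⌊δ * n⌋₊ x) ⌊δ * n / 4⌋)) →
        ∫ ω in G, |(PW p Q n ⌊δ * n⌋₊ c).X ω| ∂μ ≤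
          M * (μ.real G) ^ (1 / 4 : ℝ) *
            (∏ x : Fin l × Fin (Q.m + 1),
              μ.real (TipD (pdir p x.1) (tsite p Q n ⌊δ * n⌋₊ x) ⌊δ * n / 4⌋)) *
            μ.real (FlatD (pdir p 0) (bsite p Q n) ⌊κ1 * n⌋))

/-- **[VOUT]** the closed polygon: `V_D` times the exterior factor, and the lower bound of the
exterior factor. -/
def VOUT : Prop :=
  ∀ (l : ℕ) [NeZero l] (p : ZMod l → ℤ × ℤ) (S₀ : Finset (ℤ × ℤ)), IsPolygon p → Encloses p S₀ →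
  ∀ Q : Marks, Q.Ok → ∃ V : ℕ → ℝ,
    (∀ (κ B : ℝ), 0 < κ → ∀ᶠ n : ℕ in atTop, ∀ c : Ed → ℝ, FlowIn (enl S₀ n) κ B n c →
      ∫ ω, (PF p Q n c).X ω ∂μ = VD (enl S₀ n) (bsite p Q n) (dv c) * V n) ∧
    ∀ κ1 : ℝ, 0 < κ1 → ∃ c₀ : ℝ, 0 < c₀ ∧ ∀ᶠ n : ℕ in atTop,
      c₀ * μ.real (FlatD (pdir p 0) (bsite p Q n) ⌊κ1 * (n : ℝ)⌋) ≤ V n

/-- **[TAB]** the strands near a hole, for the polygon with holes and the closed polygon. -/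
def TAB : Prop :=
  ∀ (l : ℕ) [NeZero l] (p : ZMod l → ℤ × ℤ) (S₀ : Finset (ℤ × ℤ)), IsPolygon p → Encloses p S₀ →
  ∀ Q : Marks, Q.Ok → ∀ (κ B : ℝ), 0 < κ → ∃ κ0 : ℝ, 0 < κ0 ∧ ∃ δ₁ : ℝ, 0 < δ₁ ∧
  ∀ δ : ℝ, 0 < δ → δ < δ₁ →
  ∀ᶠ n : ℕ in atTop, ∀ c : Ed → ℝ, FlowIn (enl S₀ n) κ B n c →
    ∀ (x : Fin l × Fin (Q.m + 1)) (ω : Cfg) (e : Ed) (k : ℕ), 1 ≤ k →
    (∀ i ≤ k, (nm (hdv ((nx ω)^[i] e) - hsite p Q n x) : ℝ) ≤ κ0 * n) →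
    (e ∈ (PW p Q n ⌊δ * n⌋₊ c).S → (nx ω)^[k] e ∈ (PW p Q n ⌊δ * n⌋₊ c).S →
      (∀ i, 0 < i → i < k → (nx ω)^[i] e ∉ (PW p Q n ⌊δ * n⌋₊ c).S) →
      2 * Real.cos (H199.cang A.plane (Real.pi / 3) (PW p Q n ⌊δ * n⌋₊ c).ph ω
        (H199.strand (nx ω) (PW p Q n ⌊δ * n⌋₊ c).S e)) =
      if e ∈ ((PW p Q n ⌊δ * n⌋₊ c).w x).S ∧ (nx ω)^[k] e ∈ ((PW p Q n ⌊δ * n⌋₊ c).w x).S ∧
        sg ((nx ω)^[k] e) = sg e then 0 else √3) ∧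
    (e ∈ (PF p Q n c).S → (nx ω)^[k] e ∈ (PF p Q n c).S →
      (∀ i, 0 < i → i < k → (nx ω)^[i] e ∉ (PF p Q n c).S) →
      2 * Real.cos (H199.cang A.plane (Real.pi / 3) (PF p Q n c).ph ω
        (H199.strand (nx ω) (PF p Q n c).S e)) = √3)

end Vale.Agent.P167.H662
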