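import Vale.Agent.P167.H662.TipPot
import Vale.Agent.P167.H632.Prob

/-!
# P167, block START: the tip event at different scales
-/

namespace Vale.Agent.P167.H662

open MeasureTheory Finset Vale.Agent.P145.FB Vale.Agent.P153 Vale.Agent.P153.Topo Vale.Agent.P167.H871
  Vale.Agent.P167.H632
open Vale.Agent.P167.H166 (nx_step bxx mem_bxx)

/-! ### No dual crossing of an annulus -/

/-- The annulus of radii `r`, `R` around `x` is not crossed by a dual path. -/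
def NCD (x : Pt) (r R : ℤ) : Set Mk := {ω | ¬ ∃ y y' : Pt, (y.1 + y.2) % 2 = 1 ∧ nm (y - x) = r ∧
  nm (y' - x) = R ∧ PConn (cs false ω) (an x r R) y y'}

/-- The squares of the annulus. -/
noncomputable def annS (x : Pt) (r R : ℤ) : Finset Pt := (bxx x R).filter fun v => r - 1 ≤ nm (v - x)

theorem mem_annS {x v : Pt} {r R : ℤ} : v ∈ annS x r R ↔ nm (v - x) ≤ R ∧ r - 1 ≤ nm (v - x) := by
  rw [annS, mem_filter, mem_bxx]

theorem sq_mem_annS {x u v : Pt} {r R : ℤ} {F : Set Pt} (h : PStep F u v) (hu : u ∈ an x r R)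
    (hv : v ∈ an x r R) : (min u.1 v.1, min u.2 v.2) ∈ annS x r R := by
  rw [mem_annS]
  refine ⟨sq_mem_bl hu.2 hv.2, ?_⟩
  obtain ⟨h1, h2, -⟩ := h
  obtain ⟨hu1, hu2⟩ := hu
  obtain ⟨hv1, hv2⟩ := hv
  rw [le_nm] at hu1 hv1 ⊢
  simp only [Prod.fst_sub, Prod.snd_sub] at *
  omega

theorem pconn_congr_annS {c : Bool} {o o' : Mk} {x : Pt} {r R : ℤ}
    (h : ∀ v ∈ annS x r R, o v = c → o' v = c) {u v : Pt}
    (huv : PConn (cs c o) (an x r R) u v) : PConn (cs c o') (an x r R) u v := by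
  obtain ⟨h0, h1⟩ := huv
  induction h1 with
  | refl => exact PConn.refl h0
  | @tail a b hx hxy ih =>
    have hxm := (show PConn (cs c o) (an x r R) u a from ⟨h0, hx⟩).right_mem
    exact ih.tail ⟨hxy.1.1, hxy.1.2.1, h _ (sq_mem_annS hxy.1 hxm hxy.2) hxy.1.2.2⟩ hxy.2

theorem dep_NCD (x : Pt) (r R : ℤ) : Dep (annS x r R) (NCD x r R) := by
  rintro o o' ho h ⟨y, y', h1, h2, h3, h4⟩
  exact h ⟨y, y', h1, h2, h3, pconn_congr_annS (fun v hv h => by rw [ho v hv]; exact h) h4⟩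

theorem inc_NCD (x : Pt) (r R : ℤ) : IncC true (NCD x r R) := by
  rintro o o' ho h ⟨y, y', h1, h2, h3, h4⟩
  refine h ⟨y, y', h1, h2, h3, pconn_congr_annS (fun v _ h => ?_) h4⟩
  have := ho v
  revert this h
  cases o v <;> cases o' v <;> simp

theorem compl_NCD_sub (x : Pt) (r R : ℤ) : (NCD x r R)ᶜ ⊆ Arm false x r R := by
  intro ω h
  simp only [NCD, Set.mem_compl_iff, Set.mem_ofPred_eq, not_not] at h
  obtain ⟨y, y', h1, h2, h3, h4⟩ := h
  exact ⟨y, y', h1, h2.le, h3.ge, h4.mono subset_rfl (Set.subset_univ _)⟩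

theorem ncd_ge : ∃ C α : ℝ, 0 < C ∧ 0 < α ∧ ∀ (x : Pt) (r R : ℤ), 1 ≤ r → r ≤ R →
    1 - C * ((r : ℝ) / R) ^ α ≤ μ.real (NCD x r R) := by
  obtain ⟨C, α, hC, hα, h⟩ := arm_le
  have := fair_mu.prob
  refine ⟨C, α, hC, hα, fun x r R hr hrR => ?_⟩
  have h1 := h false x r R hr hrR
  have h2 : μ.real (NCD x r R)ᶜ ≤ μ.real (Arm false x r R) := measureReal_mono (compl_NCD_sub x r R)
  rw [probReal_compl_eq_one_sub (dep_NCD x r R).meas] at h2
  linarith

theorem rs_path (ω : Cfg) (e : Ed) (k : ℕ) :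
    PConn (cs false ω) Set.univ (rs e) (rs ((nx ω)^[k] e)) := by
  induction k with
  | zero => exact PConn.refl (Set.mem_univ _)
  | succ k ih =>
    rw [Function.iterate_succ_apply']
    rcases hv : ω (hdv ((nx ω)^[k] e)) with _ | _
    · have h1 := ((nx_step ω ((nx ω)^[k] e)).2 hv).2
      refine ih.tail ⟨h1.1, h1.2.1, ?_⟩ (Set.mem_univ _)
      rw [Set.mem_singleton_iff.1 h1.2.2]
      exact hv
    · rw [((nx_step ω ((nx ω)^[k] e)).1 hv).2]
      exact ih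

theorem rs_near (e : Ed) (x : Pt) : nm (rs e - x) ≤ nm (hdv e - x) + 1 ∧
    nm (hdv e - x) - 1 ≤ nm (rs e - x) := by
  obtain ⟨-, -, h1, h2, -⟩ := H166.corner e
  have k1 : nm (hdv e - x) ≤ nm (hdv e - x) := le_rfl
  have k2 : nm (rs e - x) ≤ nm (rs e - x) := le_rfl
  constructor
  · rw [H632.nm_le] at k1 ⊢
    simp only [Prod.fst_sub, Prod.snd_sub] at *
    omega
  · have : nm (hdv e - x) ≤ nm (rs e - x) + 1 := by
      rw [H632.nm_le] at k2 ⊢
      simp only [Prod.fst_sub, Prod.snd_sub] at *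
      omega
    omega

theorem NoOrb_of_NCD {x : Pt} {r R : ℤ} (hrR : r + 1 ≤ R) {ω : Cfg} (h : ω ∈ NCD x (r + 1) R) :
    NoOrb x r R ω := by
  intro e k
  have hodd : ∀ e : Ed, ((rs e).1 + (rs e).2) % 2 = 1 := fun e => (H166.corner e).2.2.2.2.2
  have key : ∀ a b : Ed, PConn (cs false ω) Set.univ (rs a) (rs b) → nm (hdv a - x) ≤ r →
      nm (hdv b - x) ≤ R := by
    intro a b hab ha
    by_contra hb
    push Not at hb
    have h1 := (rs_near a x).1
    have h2 := (rs_near b x).2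
    obtain ⟨w, w', k1, k2, k3, k4, -⟩ := crossing (b := x) hrR hab (by omega) (by omega)
    refine h ⟨w, w', ?_, k1, k2, k4.mono subset_rfl Set.inter_subset_right⟩
    rw [← k3.parity]
    exact hodd a
  exact ⟨key _ _ (rs_path ω e k), key _ _ (rs_path ω e k).symm⟩

/-! ### The tip events -/

/-- The tip is joined in the slit domain to distance larger than `R`. -/
def SArm (z : Pt) (R : ℤ) : Set Mk :=
  {ω | ∃ v, R < nm (v - z) ∧ ∃ s, CConn (Sl z) {v | nm (v - z) ≤ R} ω (z, z) (v, s)}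

/-- No strand joins the two sides of the slit in the box of radius `R`. -/
def TipOk (z : Pt) (R : ℤ) : Set Mk := {ω | ¬ FF z {v | nm (v - z) ≤ R} ω}

theorem dep_SArm (z : Pt) (R : ℤ) : Dep (bxx z R) (SArm z R) := by
  rintro o o' ho ⟨v, hv, s, h⟩
  refine ⟨v, hv, s, h.mono subset_rfl subset_rfl fun w hw hw' => ?_⟩
  rw [← ho w (mem_bxx.2 hw)]
  exact hw'

theorem inc_SArm (z : Pt) (R : ℤ) : IncC true (SArm z R) := by
  rintro o o' ho ⟨v, hv, s, h⟩
  exact ⟨v, hv, s, h.mono subset_rfl subset_rfl fun w _ hw' => ho w hw'⟩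

theorem iter_congr {ω ω' : Cfg} {B : Set Pt} (h : ∀ v ∈ B, ω v = ω' v) {e : Ed} {n : ℕ}
    (hB : ∀ i < n, hdv ((nx ω)^[i] e) ∈ B) : ∀ i ≤ n, (nx ω)^[i] e = (nx ω')^[i] e := by
  intro i hi
  induction i with
  | zero => rfl
  | succ i ih =>
    rw [Function.iterate_succ_apply', Function.iterate_succ_apply', ← ih (by omega)]
    exact nx_congr (h _ (hB i (by omega)))

theorem FF.congr {ω ω' : Cfg} {z : Pt} {B : Set Pt} (h : ∀ v ∈ B, ω v = ω' v) (hF : FF z B ω) :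
    FF z B ω' := by
  obtain ⟨e, n, hs, hff⟩ := hF
  have hi := iter_congr h hs.box
  refine ⟨e, n, ⟨hs.pos, hs.left, ?_, fun i h0 h1 => ?_, fun i h1 => ?_⟩, ?_⟩
  · rw [← hi n le_rfl]; exact hs.right
  · rw [← hi i h1.le]; exact hs.mid i h0 h1
  · rw [← hi i h1.le]; exact hs.box i h1
  · rw [← hi n le_rfl]; exact hff

theorem dep_TipOk (z : Pt) (R : ℤ) : Dep (bxx z R) (TipOk z R) := by
  intro o o' ho h hF
  exact h (hF.congr fun v hv => (ho v (mem_bxx.2 hv)).symm)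

theorem box_fin (z : Pt) (R : ℤ) : {v : Pt | nm (v - z) ≤ R}.Finite :=
  (bxx z R).finite_toSet.subset fun _ hv => mem_coe.2 (mem_bxx.2 hv)

theorem TipOk_sub_SArm {z : Pt} (hz : Even (z.1 + z.2)) (R : ℤ) : TipOk z R ⊆ SArm z R := by
  intro ω h
  obtain ⟨v, hv, s, hs⟩ := conn_of_not_FF hz (box_fin z R) h
  exact ⟨v, not_le.1 hv, s, hs⟩

theorem glue_sub_TipOk {z : Pt} {r R L : ℤ} (hrR : r + 1 ≤ R) :
    SArm z R ∩ (NCD z (r + 1) R ∩ HB true z r (L + 1)) ⊆ TipOk z L := by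
  rintro ω ⟨h1, h2, y, y', k1, k2, k3, k4⟩
  refine not_FF_of_glue h1 (NoOrb_of_NCD hrR h2) ⟨y, y', ?_, k2, k3, ?_⟩
  · rw [Int.even_iff]
    simpa [pr] using k1
  · exact k4.mono subset_rfl fun w hw => hw.1

theorem FF.mono {z : Pt} {B B' : Set Pt} (h : B ⊆ B') {ω : Cfg} (hF : FF z B ω) : FF z B' ω := by
  obtain ⟨e, n, hs, hff⟩ := hF
  exact ⟨e, n, ⟨hs.pos, hs.left, hs.right, hs.mid, fun i hi => h (hs.box i hi)⟩, hff⟩

theorem TipOk_anti {z : Pt} {L L' : ℤ} (h : L ≤ L') : TipOk z L' ⊆ TipOk z L :=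
  fun _ h' hF => h' (hF.mono fun _ hv => le_trans hv h)

/-- Lower bound of the gluing event; `K` is universal. -/
theorem glue_ge : ∃ K : ℤ, 2 ≤ K ∧ ∀ Λ : ℕ, ∃ c : ℝ, 0 < c ∧ ∀ (z : Pt) (R L : ℤ), K ≤ R → R ≤ L →
    L + 1 ≤ Λ * R → c ≤ μ.real (NCD z (R / K + 1) R ∩ HB true z (R / K) (L + 1)) := by
  obtain ⟨C, α, hC, hα, h⟩ := ncd_ge
  obtain ⟨K, hK2, hK⟩ : ∃ K : ℤ, 2 ≤ K ∧ C * ((2 : ℝ) / K) ^ α ≤ 1 / 2 := by
    have h1 : Filter.Tendsto (fun x : ℝ => C * (2 / x) ^ α) Filter.atTop (nhds 0) := by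
      have h2 : Filter.Tendsto (fun x : ℝ => (2 : ℝ) / x) Filter.atTop (nhds 0) :=
        Filter.Tendsto.div_atTop tendsto_const_nhds Filter.tendsto_id
      have h3 := (h2.rpow_const (p := α) (Or.inr hα.le)).const_mul C
      rwa [Real.zero_rpow hα.ne', mul_zero] at h3
    have h2 : ∀ᶠ x : ℝ in Filter.atTop, C * (2 / x) ^ α ≤ 1 / 2 :=
      h1.eventually_le_const (by norm_num)
    obtain ⟨x, hx⟩ := (h2.and (Filter.eventually_ge_atTop 2)).exists_forall_of_atTop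
    refine ⟨max 2 ⌈x⌉, le_max_left _ _, ?_⟩
    refine (hx _ ?_).1
    push_cast
    exact le_max_of_le_right (Int.le_ceil x)
  refine ⟨K, hK2, fun Λ => ?_⟩
  obtain ⟨c0, hc0, h0⟩ := hb_ge (2 * Λ * K.toNat)
  refine ⟨1 / 2 * c0, by positivity, fun z R L hR hRL hL => ?_⟩
  obtain ⟨r, hr⟩ : ∃ r, r = R / K := ⟨_, rfl⟩
  rw [← hr]
  have hr1 : 1 ≤ r := by
    rw [hr]
    exact (Int.le_ediv_iff_mul_le (by omega)).2 (by omega)
  have hrK : K * r ≤ R := by rw [hr]; exact Int.mul_ediv_self_le (by omega)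
  have hrK' : R < K * (r + 1) := by
    have := Int.lt_ediv_add_one_mul_self R (show 0 < K by omega)
    rw [← hr] at this
    linarith
  have hr1R : r + 1 ≤ R := by nlinarith
  have hcK : ((K.toNat : ℕ) : ℤ) = K := Int.toNat_of_nonneg (by omega)
  have h1 := h z (r + 1) R (by omega) hr1R
  have h2 := h0 true z r (L + 1) hr1 (by omega) (by
    push_cast
    rw [hcK]
    have h3 : (0 : ℤ) ≤ Λ := by positivity
    have h4 : (Λ : ℤ) * R ≤ Λ * (K * (r + 1)) := mul_le_mul_of_nonneg_left hrK'.le h3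
    have h5 : (Λ : ℤ) * K * (r + 1) ≤ Λ * K * (2 * r) :=
      mul_le_mul_of_nonneg_left (by omega) (by positivity)
    linarith)
  have h3 : (1 : ℝ) / 2 ≤ μ.real (NCD z (r + 1) R) := by
    refine le_trans ?_ h1
    have hRp : (0 : ℝ) < R := by
      have : (0 : ℤ) < R := by omega
      exact_mod_cast this
    have hKp : (0 : ℝ) < K := by
      have : (0 : ℤ) < K := by omega
      exact_mod_cast this
    have h4 : (((r + 1 : ℤ) : ℝ) / R) ≤ 2 / K := by
      rw [div_le_div_iff₀ hRp hKp]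
      have h5 : (r + 1) * K ≤ 2 * R := by nlinarith
      exact_mod_cast h5
    have h5 : C * (((r + 1 : ℤ) : ℝ) / R) ^ α ≤ C * ((2 : ℝ) / K) ^ α := by
      have h6 : (0 : ℝ) ≤ ((r + 1 : ℤ) : ℝ) / R := by
        have : (0 : ℤ) ≤ r + 1 := by omega
        have : (0 : ℝ) ≤ ((r + 1 : ℤ) : ℝ) := by exact_mod_cast this
        positivity
      gcongr
    linarith
  calc 1 / 2 * c0 ≤ μ.real (NCD z (r + 1) R) * μ.real (HB true z r (L + 1)) := by gcongr
    _ ≤ _ := fkg_c (dep_NCD z (r + 1) R) (dep_HB true z r (L + 1)) (inc_NCD z (r + 1) R)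
      (inc_HB true z r (L + 1))

/-- **Comparison of the tip events at comparable scales.** -/
theorem tip_ge (Λ : ℕ) : ∃ c : ℝ, 0 < c ∧ ∃ R0 : ℤ, ∀ (z : Pt), Even (z.1 + z.2) → ∀ R L : ℤ,
    R0 ≤ R → L + 1 ≤ Λ * R → c * μ.real (SArm z R) ≤ μ.real (TipOk z L) := by
  obtain ⟨K, hK2, hK⟩ := glue_ge
  obtain ⟨c, hc, h⟩ := hK (Λ + 2)
  have := fair_mu.prob
  refine ⟨c, hc, K, fun z hz R L hR hL => ?_⟩
  have h1 := h z R (max R L) hR (le_max_left _ _) (by
    push_cast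
    have h3 : (0 : ℤ) ≤ Λ := by positivity
    rcases le_total R L with h2 | h2
    · rw [max_eq_right h2]; nlinarith
    · rw [max_eq_left h2]; nlinarith)
  have hdep : Dep (annS z (R / K + 1) R ∪ aq z 0 (max R L + 1))
      (NCD z (R / K + 1) R ∩ HB true z (R / K) (max R L + 1)) :=
    (dep_NCD _ _ _).inter' (dep_HB _ _ _ _)
  have hinc := (inc_NCD z (R / K + 1) R).inter (inc_HB true z (R / K) (max R L + 1))
  have hrR : R / K + 1 ≤ R := by
    have hr1 : 1 ≤ R / K := (Int.le_ediv_iff_mul_le (by omega)).2 (by omega)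
    have hrK : K * (R / K) ≤ R := Int.mul_ediv_self_le (by omega)
    nlinarith
  calc c * μ.real (SArm z R) ≤ μ.real (SArm z R) *
        μ.real (NCD z (R / K + 1) R ∩ HB true z (R / K) (max R L + 1)) := by
        rw [mul_comm]; gcongr
    _ ≤ μ.real (SArm z R ∩ (NCD z (R / K + 1) R ∩ HB true z (R / K) (max R L + 1))) :=
        fkg_c (dep_SArm z R) hdep (inc_SArm z R) hinc
    _ ≤ μ.real (TipOk z L) :=
        measureReal_mono ((glue_sub_TipOk hrR).trans (TipOk_anti (le_max_right _ _)))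

end Vale.Agent.P167.H662
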