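import Vale.Agent.P167.H662.TipProb

/-!
# P167, block START: the tip events and the flat events in the four directions

`Ray r z`: the cut edges of the half line which starts at the site `z` in the direction `r`.
`FFD L B ω`: a strand of `L` in the squares `B` whose ends are on different faces of `L`
(same orientation of the two edges). `OvD r z B ω`: a strand over the site `z` on the right hand side
of the line of direction `r` through `z`.
-/

namespace Vale.Agent.P167.H662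

open MeasureTheory Finset Vale.Agent.P145.FB Vale.Agent.P153 Vale.Agent.P153.Topo Vale.Agent.P167.H871
  Vale.Agent.P167.H632
open Vale.Agent.P167.H166 (nx_step bxx mem_bxx)

/-- The cut edges of the half line which starts at the site `z` in the direction `r`. -/
def Ray (r : Fin 4) (z : ℤ × ℤ) : Set Ed :=
  match r with
  | 0 => {e | ∃ x, z.1 ≤ x ∧ e = Sum.inr (x, z.2 - 1)}
  | 1 => {e | ∃ y, z.2 ≤ y ∧ e = Sum.inl (z.1 - 1, y)}
  | 2 => {e | ∃ x, x < z.1 ∧ e = Sum.inr (x, z.2 - 1)}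
  | 3 => {e | ∃ y, y < z.2 ∧ e = Sum.inl (z.1 - 1, y)}

/-- The squares at distance at most `R`. -/
def bal (z : ℤ × ℤ) (R : ℤ) : Set (ℤ × ℤ) := {v | nm (v - z) ≤ R}

/-- A strand of `L` in `B` joins two different faces. -/
def FFD (L : Set Ed) (B : Set (ℤ × ℤ)) (ω : Cfg) : Prop :=
  ∃ (e : Ed) (n : ℕ), 1 ≤ n ∧ e ∈ L ∧ (nx ω)^[n] e ∈ L ∧
    (∀ i, 0 < i → i < n → (nx ω)^[i] e ∉ L) ∧ (∀ i < n, hdv ((nx ω)^[i] e) ∈ B) ∧
    sg ((nx ω)^[n] e) = sg e

/-- Sign of the edges which leave the line of direction `r` to its right hand side. -/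
def os (r : Fin 4) : ℤ := if r = 0 ∨ r = 3 then -1 else 1

/-- A strand in `B` over the site `z`, on the right hand side of the line of direction `r`. -/
def OvD (r : Fin 4) (z : ℤ × ℤ) (B : Set (ℤ × ℤ)) (ω : Cfg) : Prop :=
  ∃ (e : Ed) (n : ℕ), 1 ≤ n ∧ e ∈ Ray r z ∪ Ray (r + 2) z ∧
    (nx ω)^[n] e ∈ Ray r z ∪ Ray (r + 2) z ∧
    (∀ i, 0 < i → i < n → (nx ω)^[i] e ∉ Ray r z ∪ Ray (r + 2) z) ∧
    (∀ i < n, hdv ((nx ω)^[i] e) ∈ B) ∧ sg e = os r ∧ sg ((nx ω)^[n] e) = - os r ∧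
    (e ∈ Ray r z ↔ (nx ω)^[n] e ∉ Ray r z)

/-- The tip event: no strand around the tip `z` of the half line of direction `r`. -/
def TipD (r : Fin 4) (z : ℤ × ℤ) (R : ℤ) : Set Mk := {ω | ¬ FFD (Ray r z) (bal z R) ω}

/-- The flat event: no strand over the site `z` on the right hand side of the line of direction `r`. -/
def FlatD (r : Fin 4) (z : ℤ × ℤ) (R : ℤ) : Set Mk := {ω | ¬ OvD r z (bal z R) ω}

/-- The colour of the sites of the parity of `z`. -/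
def col (z : ℤ × ℤ) : Bool := decide (Even (z.1 + z.2))

/-- The annulus of radii `r`, `R` around `x` is not crossed by a path of colour `!c`. -/
def NCc (c : Bool) (x : Pt) (r R : ℤ) : Set Mk := {ω | ¬ ∃ y y' : Pt, (y.1 + y.2) % 2 = pr (!c) ∧
  nm (y - x) = r ∧ nm (y' - x) = R ∧ PConn (cs (!c) ω) (an x r R) y y'}

/-! ### finite dependence -/

theorem FFD.congr {ω ω' : Cfg} {L : Set Ed} {B : Set Pt} (h : ∀ v ∈ B, ω v = ω' v)
    (hF : FFD L B ω) : FFD L B ω' := by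
  obtain ⟨e, n, h1, h2, h3, h4, h5, h6⟩ := hF
  have hi := iter_congr h h5
  refine ⟨e, n, h1, h2, ?_, fun i h0 h1 => ?_, fun i h1 => ?_, ?_⟩
  · rw [← hi n le_rfl]; exact h3
  · rw [← hi i h1.le]; exact h4 i h0 h1
  · rw [← hi i h1.le]; exact h5 i h1
  · rw [← hi n le_rfl]; exact h6

theorem OvD.congr {ω ω' : Cfg} {r : Fin 4} {z : ℤ × ℤ} {B : Set Pt} (h : ∀ v ∈ B, ω v = ω' v)
    (hF : OvD r z B ω) : OvD r z B ω' := by
  obtain ⟨e, n, h1, h2, h3, h4, h5, h6, h7, h8⟩ := hF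
  have hi := iter_congr h h5
  refine ⟨e, n, h1, h2, ?_, fun i h0 h1 => ?_, fun i h1 => ?_, h6, ?_, ?_⟩
  · rw [← hi n le_rfl]; exact h3
  · rw [← hi i h1.le]; exact h4 i h0 h1
  · rw [← hi i h1.le]; exact h5 i h1
  · rw [← hi n le_rfl]; exact h7
  · rw [← hi n le_rfl]; exact h8

theorem FFD.mono {ω : Cfg} {L : Set Ed} {B B' : Set Pt} (h : B ⊆ B') (hF : FFD L B ω) :
    FFD L B' ω := by
  obtain ⟨e, n, h1, h2, h3, h4, h5, h6⟩ := hF
  exact ⟨e, n, h1, h2, h3, h4, fun i hi => h (h5 i hi), h6⟩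

theorem OvD.mono {ω : Cfg} {r : Fin 4} {z : ℤ × ℤ} {B B' : Set Pt} (h : B ⊆ B')
    (hF : OvD r z B ω) : OvD r z B' ω := by
  obtain ⟨e, n, h1, h2, h3, h4, h5, h6, h7, h8⟩ := hF
  exact ⟨e, n, h1, h2, h3, h4, fun i hi => h (h5 i hi), h6, h7, h8⟩

theorem dep_TipD (r : Fin 4) (z : ℤ × ℤ) (R : ℤ) : Dep (bxx z R) (TipD r z R) := by
  intro o o' ho h hF
  exact h (hF.congr fun v hv => (ho v (mem_bxx.2 hv)).symm)

theorem dep_FlatD (r : Fin 4) (z : ℤ × ℤ) (R : ℤ) : Dep (bxx z R) (FlatD r z R) := by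
  intro o o' ho h hF
  exact h (hF.congr fun v hv => (ho v (mem_bxx.2 hv)).symm)

theorem TipD_anti {r : Fin 4} {z : Pt} {L L' : ℤ} (h : L ≤ L') : TipD r z L' ⊆ TipD r z L :=
  fun _ h' hF => h' (hF.mono fun _ hv => le_trans hv h)

theorem FlatD_anti {r : Fin 4} {z : Pt} {L L' : ℤ} (h : L ≤ L') : FlatD r z L' ⊆ FlatD r z L :=
  fun _ h' hF => h' (hF.mono fun _ hv => le_trans hv h)

theorem ray_zero (z : ℤ × ℤ) : Ray 0 z = Sl z := rfl

theorem updn {z : ℤ × ℤ} {e : Ed} (he : e ∈ Sl z) :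
    (z.2 ≤ (hdv e).2 ↔ sg e = 1) ∧ (z.2 ≤ (tlv e).2 ↔ sg e = -1) := by
  obtain ⟨x, hx, rfl⟩ := he
  by_cases hp : Even (x + (z.2 - 1)) <;> simp [hdv, tlv, sg, hp]

/-- For the direction `0` this is the event of `Tip.lean`. -/
theorem FFD_zero (z : ℤ × ℤ) (B : Set (ℤ × ℤ)) (ω : Cfg) : FFD (Ray 0 z) B ω ↔ FF z B ω := by
  rw [ray_zero]
  constructor
  · rintro ⟨e, n, h1, h2, h3, h4, h5, h6⟩
    refine ⟨e, n, ⟨h1, h2, h3, h4, h5⟩, ?_⟩
    rw [(updn h2).1, (updn h3).2, h6]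
    rcases H945_sg e with h | h <;> rw [h] <;> norm_num
  · rintro ⟨e, n, ⟨h1, h2, h3, h4, h5⟩, h6⟩
    refine ⟨e, n, h1, h2, h3, h4, h5, ?_⟩
    rw [(updn h2).1, (updn h3).2] at h6
    rcases H945_sg e with h | h <;> rcases H945_sg ((nx ω)^[n] e) with h' | h' <;>
      rw [h, h'] at h6 ⊢ <;> norm_num at h6
where
  H945_sg (e : Ed) : sg e = 1 ∨ sg e = -1 := by
    rcases e with v | v <;> simp only [sg] <;> split_ifs <;> simp

theorem TipD_zero (z : ℤ × ℤ) (R : ℤ) : TipD 0 z R = TipOk z R := by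
  ext ω
  exact not_congr (FFD_zero z _ ω)

end Vale.Agent.P167.H662
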