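import Vale.Agent.P167.H662.GeoDefs
import Vale.Agent.P167.H199.CutPlane
import Vale.Agent.P167.H558.Stop

/-!
# P167, block START: decomposition of the functional with respect to a set of squares

`Yp`: the factors of the orbits which do not visit `B`; `Zp`: the factors of the other ones.
-/

namespace Vale.Agent.P167.H662

open MeasureTheory Finset
open Vale.Agent.P167.A (plane plane_nx plane_hd plane_sg)
open Vale.Agent.P167.H685 (LE mem_LE s_fin loop_unique loop_gen loop_loc nx_loc)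
open Vale.Agent.P167.H199

/-- The orbit of `e` visits `B`. -/
def Vis (B : Set (ℤ × ℤ)) (ω : Cfg) (e : Ed) : Prop := ∃ k : ℕ, hdv ((nx ω)^[k] e) ∈ B

/-- The loop `ℓ` visits `B`. -/
def VisL (B : Set (ℤ × ℤ)) (ℓ : Finset Ed) : Prop := ∃ x ∈ ℓ, hdv x ∈ B

/-- Factor of a loop. -/
noncomputable def fL (a : Ed → Bool → ℝ) (ω : Cfg) (ℓ : Finset Ed) : ℝ :=
  2 * Real.cos (cang plane (Real.pi / 3) a ω ℓ)

/-- Factor of a strand. -/
noncomputable def fS (S : Finset Ed) (a : Ed → Bool → ℝ) (ω : Cfg) (e : Ed) : ℝ :=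
  (√3)⁻¹ * (2 * Real.cos (cang plane (Real.pi / 3) a ω (strand (nx ω) S e)))

open Classical in
/-- The factors of the orbits which do not visit `B`. -/
noncomputable def Yp (S E : Finset Ed) (a : Ed → Bool → ℝ) (B : Set (ℤ × ℤ)) (ω : Cfg) : ℝ :=
  (∏ ℓ ∈ (LE ω E).filter (fun ℓ => Disjoint ℓ S ∧ ¬ VisL B ℓ), fL a ω ℓ) *
    ∏ e ∈ S.filter (fun e => ¬ Vis B ω e), fS S a ω e

open Classical in
/-- The factors of the orbits which visit `B`. -/
noncomputable def Zp (S E : Finset Ed) (a : Ed → Bool → ℝ) (B : Set (ℤ × ℤ)) (ω : Cfg) : ℝ :=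
  (∏ ℓ ∈ (LE ω E).filter (fun ℓ => Disjoint ℓ S ∧ VisL B ℓ), fL a ω ℓ) *
    ∏ e ∈ S.filter (fun e => Vis B ω e), fS S a ω e

theorem X_split {S E : Finset Ed} {a : Ed → Bool → ℝ} (ha : ∀ e ∉ E, ∀ b, a e b = 0)
    (B : Set (ℤ × ℤ)) (ω : Cfg) :
    (√3)⁻¹ ^ S.card * Xc S a ω = Yp S E a B ω * Zp S E a B ω := by
  classical
  have h1 : ∏ ℓ ∈ (LE ω E).filter (fun ℓ => Disjoint ℓ S), fL a ω ℓ =
      (∏ ℓ ∈ (LE ω E).filter (fun ℓ => Disjoint ℓ S ∧ VisL B ℓ), fL a ω ℓ) *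
      ∏ ℓ ∈ (LE ω E).filter (fun ℓ => Disjoint ℓ S ∧ ¬ VisL B ℓ), fL a ω ℓ := by
    rw [← prod_filter_mul_prod_filter_not ((LE ω E).filter (fun ℓ => Disjoint ℓ S)) (VisL B),
      filter_filter, filter_filter]
  have h2 : ∏ e ∈ S, fS S a ω e = (∏ e ∈ S.filter (fun e => Vis B ω e), fS S a ω e) *
      ∏ e ∈ S.filter (fun e => ¬ Vis B ω e), fS S a ω e := by
    rw [← prod_filter_mul_prod_filter_not S (Vis B ω)]
  have h3 : ∏ e ∈ S, fS S a ω e = (√3)⁻¹ ^ S.card *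
      ∏ e ∈ S, 2 * Real.cos (cang plane (Real.pi / 3) a ω (strand (nx ω) S e)) := by
    unfold fS
    rw [prod_mul_distrib, prod_const]
  rw [Xc_eq ω ha]
  change (√3)⁻¹ ^ S.card * ((∏ ℓ ∈ (LE ω E).filter (fun ℓ => Disjoint ℓ S), fL a ω ℓ) * _) = _
  rw [h1, mul_left_comm, ← h3, h2]
  unfold Yp Zp
  ring

theorem Zp_eq {S E : Finset Ed} {a : Ed → Bool → ℝ} {B : Set (ℤ × ℤ)} {ω : Cfg}
    (h1 : ∀ ℓ, IsLoop ω ℓ → Disjoint ℓ S → VisL B ℓ → fL a ω ℓ = 1) {P : Ed → Prop}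
    [DecidablePred P] (h2 : ∀ e ∈ S, Vis B ω e → fS S a ω e = if P e then 0 else 1)
    [Decidable (∃ e ∈ S, Vis B ω e ∧ P e)] :
    Zp S E a B ω = if ∃ e ∈ S, Vis B ω e ∧ P e then 0 else 1 := by
  classical
  unfold Zp
  rw [prod_eq_one, one_mul]
  · split_ifs with h
    · obtain ⟨e, he, hv, hp⟩ := h
      refine prod_eq_zero (mem_filter.2 ⟨he, hv⟩) ?_
      rw [h2 e he hv, if_pos hp]
    · refine prod_eq_one fun e he => ?_
      rw [mem_filter] at he
      rw [h2 e he.1 he.2, if_neg fun hp => h ⟨e, he.1, he.2, hp⟩]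
  · intro ℓ hℓ
    rw [mem_filter, mem_LE] at hℓ
    exact h1 ℓ hℓ.1.1 hℓ.2.1 hℓ.2.2

theorem ret_eq_of {S S' : Finset Ed} {ω : Cfg} {e : Ed}
    (h : ∀ k, (nx ω)^[k] e ∈ S ↔ (nx ω)^[k] e ∈ S') : strand (nx ω) S e = strand (nx ω) S' e := by
  have h1 : ret (nx ω) S e = ret (nx ω) S' e := ret_congr h
  unfold strand
  rw [h1]

theorem cang_ph {ω : Cfg} {a a' : Ed → Bool → ℝ} {c : Finset Ed}
    (h : ∀ x ∈ c, a x = a' x ∧ a (nx ω x) = a' (nx ω x)) (θ : ℝ) :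
    cang plane θ a ω c = cang plane θ a' ω c := by
  unfold cang
  refine sum_congr rfl fun x hx => ?_
  unfold ah at'
  rw [plane_nx, (h x hx).1, (h x hx).2]

/-- Removing cuts in `B` does not change the factors of the orbits which do not visit `B`. -/
theorem Yp_sub {S S' E : Finset Ed} {a a' : Ed → Bool → ℝ} {B : Set (ℤ × ℤ)} (hS : S ⊆ S')
    (hB : ∀ e ∈ S', e ∉ S → hdv e ∈ B) (ha : ∀ e, (e ∈ S' → e ∈ S) → a e = a' e) (ω : Cfg) :
    Yp S E a B ω = Yp S' E a' B ω := by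
  classical
  have hin : ∀ e, hdv e ∉ B → (e ∈ S' → e ∈ S) := fun e he h => by
    by_contra hn
    exact he (hB e h hn)
  unfold Yp
  congr 1
  · have h1 : (LE ω E).filter (fun ℓ => Disjoint ℓ S ∧ ¬ VisL B ℓ) =
        (LE ω E).filter (fun ℓ => Disjoint ℓ S' ∧ ¬ VisL B ℓ) := by
      refine filter_congr fun ℓ hℓ => and_congr_left fun hv => ?_
      constructor
      · intro hd
        rw [Finset.disjoint_left] at hd ⊢
        intro x hx hx'
        exact hd hx (hin x (fun h => hv ⟨x, hx, h⟩) hx')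
      · exact fun hd => hd.mono_right hS
    rw [h1]
    refine prod_congr rfl fun ℓ hℓ => ?_
    rw [mem_filter, mem_LE] at hℓ
    obtain ⟨⟨hl, -⟩, -, hv⟩ := hℓ
    unfold fL
    rw [cang_ph fun x hx => ⟨ha x (hin x fun h => hv ⟨x, hx, h⟩),
      ha _ (hin _ fun h => hv ⟨_, loop_nx hl hx, h⟩)⟩]
  · have h1 : S.filter (fun e => ¬ Vis B ω e) = S'.filter (fun e => ¬ Vis B ω e) := by
      ext e
      simp only [mem_filter]
      constructor
      · rintro ⟨h, hv⟩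
        exact ⟨hS h, hv⟩
      · rintro ⟨h, hv⟩
        exact ⟨hin e (fun h => hv ⟨0, h⟩) h, hv⟩
    rw [h1]
    refine prod_congr rfl fun e he => ?_
    rw [mem_filter] at he
    obtain ⟨-, hv⟩ := he
    have h2 : ∀ k, hdv ((nx ω)^[k] e) ∉ B := fun k h => hv ⟨k, h⟩
    unfold fS
    rw [ret_eq_of (S := S) (S' := S') fun k => ⟨fun h => hS h, fun h => hin _ (h2 k) h⟩]
    rw [cang_ph fun x hx => ?_]
    obtain ⟨k, _, rfl⟩ := mem_strand.1 hx
    refine ⟨ha _ (hin _ (h2 k)), ?_⟩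
    have := h2 (k + 1)
    rw [Function.iterate_succ_apply'] at this
    exact ha _ (hin _ this)

theorem Vis_loc {B : Set (ℤ × ℤ)} {ω ω' : Cfg} (h : ∀ v ∉ B, ω v = ω' v) {e : Ed}
    (hv : ¬ Vis B ω e) : ∀ k, (nx ω)^[k] e = (nx ω')^[k] e := by
  intro k
  induction k with
  | zero => rfl
  | succ k ih =>
    rw [Function.iterate_succ_apply', Function.iterate_succ_apply', ← ih]
    exact nx_loc (h _ fun hb => hv ⟨k, hb⟩)

theorem Vis_congr {B : Set (ℤ × ℤ)} {ω ω' : Cfg} (h : ∀ v ∉ B, ω v = ω' v) {e : Ed}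
    (hv : ¬ Vis B ω e) : ¬ Vis B ω' e := by
  rintro ⟨k, hk⟩
  rw [← Vis_loc h hv k] at hk
  exact hv ⟨k, hk⟩

theorem loop_off {B : Set (ℤ × ℤ)} {ω ω' : Cfg} (h : ∀ v ∉ B, ω v = ω' v) {ℓ : Finset Ed}
    (hl : IsLoop ω ℓ) (hv : ¬ VisL B ℓ) : IsLoop ω' ℓ := by
  refine loop_loc hl fun v hv' => h v fun hb => ?_
  obtain ⟨x, hx, rfl⟩ := mem_image.1 hv'
  exact hv ⟨x, hx, hb⟩

/-- The factors of the orbits which do not visit `B` do not depend on the squares of `B`. -/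
theorem Yp_loc (S E : Finset Ed) (a : Ed → Bool → ℝ) {B : Set (ℤ × ℤ)} {ω ω' : Cfg}
    (h : ∀ v ∉ B, ω v = ω' v) : Yp S E a B ω = Yp S E a B ω' := by
  classical
  have h' : ∀ v ∉ B, ω' v = ω v := fun v hv => (h v hv).symm
  unfold Yp
  congr 1
  · have h1 : (LE ω E).filter (fun ℓ => Disjoint ℓ S ∧ ¬ VisL B ℓ) =
        (LE ω' E).filter (fun ℓ => Disjoint ℓ S ∧ ¬ VisL B ℓ) := by
      ext ℓ
      simp only [mem_filter, mem_LE]
      constructor
      · rintro ⟨⟨h1, h2⟩, h3, h4⟩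
        exact ⟨⟨loop_off h h1 h4, h2⟩, h3, h4⟩
      · rintro ⟨⟨h1, h2⟩, h3, h4⟩
        exact ⟨⟨loop_off h' h1 h4, h2⟩, h3, h4⟩
    rw [h1]
    refine prod_congr rfl fun ℓ hℓ => ?_
    rw [mem_filter] at hℓ
    unfold fL
    rw [cang_congr fun x hx => h _ fun hb => hℓ.2.2 ⟨x, hx, hb⟩]
  · have h1 : S.filter (fun e => ¬ Vis B ω e) = S.filter (fun e => ¬ Vis B ω' e) :=
      filter_congr fun e _ => ⟨Vis_congr h, Vis_congr h'⟩
    rw [← h1]
    refine prod_congr rfl fun e he => ?_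
    rw [mem_filter] at he
    unfold fS
    rw [← strand_congr (S := S) (Vis_loc h he.2), cang_congr fun x hx => ?_]
    obtain ⟨k, _, rfl⟩ := mem_strand.1 hx
    exact h _ fun hb => he.2 ⟨k, hb⟩

/-! ### independence -/

open Vale.Agent.P145.FB Vale.Agent.P153.Topo Vale.Agent.P167.H871 in
/-- A function which does not depend on the squares of `B` is independent of the events which
depend on them only. -/
theorem int_indep {F : Finset (ℤ × ℤ)} {A : Set Mk} (hA : Dep F A) {f : Cfg → ℝ}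
    (hf : ∀ ω ω' : Cfg, (∀ v ∉ (F : Set (ℤ × ℤ)), ω v = ω' v) → f ω = f ω')
    (hm : AEStronglyMeasurable f μ) : ∫ ω in A, f ω ∂μ = μ.real A * ∫ ω, f ω ∂μ := by
  classical
  have hAm : MeasurableSet A := hA.meas
  have hmu : (μ : Measure Cfg) = H558.Pm Vale.Agent.P167.fair (ℤ × ℤ) := rfl
  have := Vale.Agent.P167.H871.fair_mu.prob
  set K : Set (ℤ × ℤ) := (F : Set (ℤ × ℤ))ᶜ with hK
  have hglue : Measure.map (fun p : Cfg × Cfg => H558.glue K p.1 p.2) (μ.prod μ) = μ :=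
    H558.map_glue Vale.Agent.P167.fair K
  have hgm : Measurable (fun p : Cfg × Cfg => H558.glue K p.1 p.2) := H558.measurable_glue K
  rw [← integral_indicator hAm]
  have hmA : AEStronglyMeasurable (A.indicator f) μ := hm.indicator hAm
  have h1 : ∫ ω, A.indicator f ω ∂μ =
      ∫ p : Cfg × Cfg, A.indicator f (H558.glue K p.1 p.2) ∂(μ.prod μ) := by
    conv_lhs => rw [← hglue]
    rw [integral_map hgm.aemeasurable]
    rw [hglue]
    exact hmA
  rw [h1]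
  have h2 : ∀ p : Cfg × Cfg, A.indicator f (H558.glue K p.1 p.2) =
      f p.1 * A.indicator (fun _ => (1 : ℝ)) p.2 := by
    intro p
    have hf' : f (H558.glue K p.1 p.2) = f p.1 := by
      apply hf
      intro v hv
      exact H558.glue_mem hv
    have hA' : H558.glue K p.1 p.2 ∈ A ↔ p.2 ∈ A := by
      have hag : ∀ v ∈ F, H558.glue K p.1 p.2 v = p.2 v := fun v hv =>
        H558.glue_not_mem (by rw [hK, Set.mem_compl_iff, not_not]; exact_mod_cast hv)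
      exact ⟨hA _ _ hag, hA _ _ fun v hv => (hag v hv).symm⟩
    by_cases h : p.2 ∈ A
    · rw [Set.indicator_of_mem (hA'.2 h), Set.indicator_of_mem h, hf', mul_one]
    · rw [Set.indicator_of_notMem (fun h' => h (hA'.1 h')), Set.indicator_of_notMem h, mul_zero]
  simp only [h2]
  rw [integral_prod_mul f (A.indicator fun _ => (1 : ℝ)), integral_indicator hAm, mul_comm]
  congr 1
  simp

end Vale.Agent.P167.H662
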