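import Vale.Agent.P167.H662.Dec

/-!
# P167, block START: the polygon with holes and the closed polygon

On the event that no orbit crosses the annuli around the holes, the functional of the polygon with
holes is the functional of the closed polygon times the indicator of a local event at every hole.
-/

namespace Vale.Agent.P167.H662

open MeasureTheory Finset
open Vale.Agent.P167.A (plane plane_nx plane_hd plane_sg)
open Vale.Agent.P167.H685 (LE mem_LE s_fin loop_unique loop_gen loop_loc nx_loc)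
open Vale.Agent.P167.H199
open Vale.Agent.P167.H825
open Vale.Agent.P167.E6 (IsPolygon Encloses dir)

section wc

variable {ι : Type} [Fintype ι]

/-- A face-to-face strand of the wall `x` in the squares `B`. -/
def FFW (W : WC ι) (x : ι) (B : Set (ℤ × ℤ)) (ω : Cfg) : Prop :=
  ∃ (e : Ed) (k : ℕ), 1 ≤ k ∧ e ∈ (W.w x).S ∧ (nx ω)^[k] e ∈ (W.w x).S ∧
    (∀ i, 0 < i → i < k → (nx ω)^[i] e ∉ W.S) ∧ (∀ i < k, hdv ((nx ω)^[i] e) ∈ B) ∧
    sg ((nx ω)^[k] e) = sg e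

theorem FFW.congr {W : WC ι} {x : ι} {B : Set (ℤ × ℤ)} {ω ω' : Cfg} (h : ∀ v ∈ B, ω v = ω' v)
    (hF : FFW W x B ω) : FFW W x B ω' := by
  obtain ⟨e, n, h1, h2, h3, h4, h5, h6⟩ := hF
  have hi := iter_congr h h5
  refine ⟨e, n, h1, h2, ?_, fun i h0 h1 => ?_, fun i h1 => ?_, ?_⟩
  · rw [← hi n le_rfl]; exact h3
  · rw [← hi i h1.le]; exact h4 i h0 h1
  · rw [← hi i h1.le]; exact h5 i h1
  · rw [← hi n le_rfl]; exact h6

theorem ph_wall_zero {w : Wall} {e : Ed} (he : e ∉ w.S) (b : Bool) : w.ph e b = 0 := by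
  unfold Wall.ph
  refine sum_eq_zero fun k hk => if_neg fun h => he ?_
  rw [h]
  exact mem_image_of_mem _ hk

theorem ph_off {W : WC ι} {e : Ed} (he : e ∉ W.S) (b : Bool) : W.ph e b = W.c e / 2 := by
  unfold WC.ph
  rw [sum_eq_zero, zero_add]
  intro i _
  refine ph_wall_zero (fun h => he ?_) b
  exact mem_biUnion.2 ⟨i, mem_univ _, h⟩

theorem wS_sub (W : WC ι) (i : ι) : (W.w i).S ⊆ W.S := fun _ h =>
  mem_biUnion.2 ⟨i, mem_univ _, h⟩

end wc

section poly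

variable {l : ℕ} {p : ZMod l → ℤ × ℤ} {D : Finset (ℤ × ℤ)} {Q : Marks} {n d : ℕ} {κ0 : ℝ}
  {c : Ed → ℝ}

theorem PW_S (c : Ed → ℝ) : (PW p Q n d c).S = (PW p Q n d 0).S := rfl

theorem PW_w (c : Ed → ℝ) (x) : (PW p Q n d c).w x = (PW p Q n d 0).w x := rfl

theorem PF_S (c : Ed → ℝ) : (PF p Q n c).S = (PF p Q n 0).S := rfl

/-- The table near the holes at `(n, d, c)`. -/
def TabAt (p : ZMod l → ℤ × ℤ) (Q : Marks) (n d : ℕ) (κ0 : ℝ) (c : Ed → ℝ) : Prop :=
  ∀ (x : Fin l × Fin (Q.m + 1)) (ω : Cfg) (e : Ed) (k : ℕ), 1 ≤ k →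
    (∀ i ≤ k, (nm (hdv ((nx ω)^[i] e) - hsite p Q n x) : ℝ) ≤ κ0 * n) →
    (e ∈ (PW p Q n d c).S → (nx ω)^[k] e ∈ (PW p Q n d c).S →
      (∀ i, 0 < i → i < k → (nx ω)^[i] e ∉ (PW p Q n d c).S) →
      2 * Real.cos (cang plane (Real.pi / 3) (PW p Q n d c).ph ω
        (strand (nx ω) (PW p Q n d c).S e)) =
      if e ∈ ((PW p Q n d c).w x).S ∧ (nx ω)^[k] e ∈ ((PW p Q n d c).w x).S ∧
        sg ((nx ω)^[k] e) = sg e then 0 else √3) ∧
    (e ∈ (PF p Q n c).S → (nx ω)^[k] e ∈ (PF p Q n c).S →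
      (∀ i, 0 < i → i < k → (nx ω)^[i] e ∉ (PF p Q n c).S) →
      2 * Real.cos (cang plane (Real.pi / 3) (PF p Q n c).ph ω
        (strand (nx ω) (PF p Q n c).S e)) = √3)

theorem sg_or (e : Ed) : sg e = 1 ∨ sg e = -1 := by
  rcases e with v | v <;> simp only [sg] <;> split_ifs <;> simp

theorem os_or (r : Fin 4) : os r = 1 ∨ os r = -1 := by
  unfold os; split_ifs <;> simp

/-- A face-to-face strand of a wall goes through a gap. -/
theorem gap_of_ff (geo : GeoAt p D Q n d κ0) {x : Fin l × Fin (Q.m + 1)} {ω : Cfg} {e : Ed} {k : ℕ}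
    (hk : 1 ≤ k) (he : e ∈ ((PW p Q n d c).w x).S) (he' : (nx ω)^[k] e ∈ ((PW p Q n d c).w x).S)
    (hmid : ∀ i, 0 < i → i < k → (nx ω)^[i] e ∉ (PW p Q n d c).S)
    (hsg : sg ((nx ω)^[k] e) = sg e) :
    ∃ i < k, ∃ y, nm (hdv ((nx ω)^[i] e) - hsite p Q n y) ≤ d + 3 := by
  have h1 := (geo.ray x e he).2.1
  have h2 := (geo.ray x _ he').2.2
  rw [hsg] at h2
  have h3 : hdv e ∈ D ↔ ¬ tlv ((nx ω)^[k] e) ∈ D := by
    rw [h1, h2]
    rcases sg_or e with h | h <;> rcases os_or (pdir p x.1) with h' | h' <;> rw [h, h'] <;> norm_num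
  obtain ⟨m, rfl⟩ : ∃ m, k = m + 1 := ⟨k - 1, by omega⟩
  rw [Function.iterate_succ_apply', tlv_nx] at h3
  -- a change of side
  have h4 : ∃ i, 0 < i ∧ i ≤ m ∧ ¬ (hdv ((nx ω)^[i - 1] e) ∈ D ↔ hdv ((nx ω)^[i] e) ∈ D) := by
    by_contra hcon
    push Not at hcon
    have key : ∀ i ≤ m, (hdv e ∈ D ↔ hdv ((nx ω)^[i] e) ∈ D) := by
      intro i
      induction i with
      | zero => intro _; rfl
      | succ i ih =>
        intro hi
        rw [ih (by omega)]
        have := hcon (i + 1) (by omega) hi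
        simpa using this
    have := key m le_rfl
    tauto
  obtain ⟨i, hi0, him, hi⟩ := h4
  have h5 : Bdy D ((nx ω)^[i] e) := by
    unfold Bdy
    obtain ⟨j, rfl⟩ : ∃ j, i = j + 1 := ⟨i - 1, by omega⟩
    rw [Nat.add_sub_cancel] at hi
    intro h6
    apply hi
    rw [h6]
    conv_rhs => rw [Function.iterate_succ_apply', tlv_nx]
  obtain ⟨y, hy⟩ := geo.gap _ h5 (hmid i hi0 (by omega))
  exact ⟨i, by omega, y, hy⟩

/-- The data at one scale. -/
structure Hyp (p : ZMod l → ℤ × ℤ) (D : Finset (ℤ × ℤ)) (Q : Marks) (n d : ℕ) (κ0 : ℝ)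
    (c : Ed → ℝ) (r r1 r2 : ℤ) : Prop where
  geo : GeoAt p D Q n d κ0
  tab : TabAt p Q n d κ0 c
  zero : ∀ x e, nm (hdv e - hsite p Q n x) ≤ r2 → c e = 0
  supp : ∀ e, c e ≠ 0 → epos e ∈ D
  dr : (d : ℤ) + 3 ≤ r
  r01 : r ≤ r1
  r12 : r1 ≤ r2
  sep : (2 * r2 : ℝ) < κ0 * n

/-- No orbit crosses the annuli. -/
def NC (p : ZMod l → ℤ × ℤ) (Q : Marks) (n : ℕ) (r r1 : ℤ) (ω : Cfg) : Prop :=
  ∀ x : Fin l × Fin (Q.m + 1), NoOrb (hsite p Q n x) r r1 ω

theorem nm_tri (a b c : ℤ × ℤ) : nm (a - c) ≤ nm (a - b) + nm (b - c) := by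
  have h1 : nm (a - b) ≤ nm (a - b) := le_rfl
  have h2 : nm (b - c) ≤ nm (b - c) := le_rfl
  rw [H632.nm_le] at h1 h2 ⊢
  simp only [Prod.fst_sub, Prod.snd_sub] at *
  omega

theorem nm_comm (a b : ℤ × ℤ) : nm (a - b) = nm (b - a) := by
  have h1 : nm (a - b) ≤ nm (a - b) := le_rfl
  have h2 : nm (b - a) ≤ nm (b - a) := le_rfl
  apply le_antisymm
  · rw [H632.nm_le] at h2 ⊢
    simp only [Prod.fst_sub, Prod.snd_sub] at *
    omega
  · rw [H632.nm_le] at h1 ⊢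
    simp only [Prod.fst_sub, Prod.snd_sub] at *
    omega

theorem orb_in {z : ℤ × ℤ} {r R : ℤ} {ω : Cfg} (h : NoOrb z r R ω) {e : Ed} {k : ℕ}
    (hk : nm (hdv ((nx ω)^[k] e) - z) ≤ r) (i : ℕ) : nm (hdv ((nx ω)^[i] e) - z) ≤ R := by
  rcases le_total i k with hi | hi
  · have := (h ((nx ω)^[i] e) (k - i)).2
    rw [← Function.iterate_add_apply, Nat.sub_add_cancel hi] at this
    exact this hk
  · have := (h ((nx ω)^[k] e) (i - k)).1 hk
    rwa [← Function.iterate_add_apply, Nat.sub_add_cancel hi] at this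

variable {r r1 r2 : ℤ}

theorem Hyp.uniq (H : Hyp p D Q n d κ0 c r r1 r2) {x y : Fin l × Fin (Q.m + 1)} {v : ℤ × ℤ}
    (hx : nm (v - hsite p Q n x) ≤ r2) (hy : nm (v - hsite p Q n y) ≤ r2) : x = y := by
  by_contra hne
  have h1 := H.geo.far x y hne
  have h2 := nm_tri (hsite p Q n x) v (hsite p Q n y)
  rw [nm_comm (hsite p Q n x) v] at h2
  have h3 : nm (hsite p Q n x - hsite p Q n y) ≤ 2 * r2 := by linarith
  have h4 : (nm (hsite p Q n x - hsite p Q n y) : ℝ) ≤ 2 * r2 := by exact_mod_cast h3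
  linarith [H.sep]

theorem Hyp.r2n (H : Hyp p D Q n d κ0 c r r1 r2) : (r2 : ℝ) ≤ κ0 * n := by
  have h0 : (0 : ℤ) ≤ r2 := by have := H.dr; have := H.r01; have := H.r12; omega
  have h1 : (0 : ℝ) ≤ r2 := by exact_mod_cast h0
  linarith [H.sep]

/-- The squares near the holes. -/
def BB (p : ZMod l → ℤ × ℤ) (Q : Marks) (n : ℕ) (r1 : ℤ) : Set (ℤ × ℤ) :=
  {v | ∃ x : Fin l × Fin (Q.m + 1), nm (v - hsite p Q n x) ≤ r1}

theorem returns_of_fin {ω : Cfg} (hg : ∀ e : Ed, ∃ ℓ, IsLoop ω ℓ ∧ e ∈ ℓ) {S : Finset Ed} {e : Ed}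
    (he : e ∈ S) : Returns (nx ω) S e := by
  obtain ⟨ℓ, h1, h2⟩ := hg e
  obtain ⟨m, hm⟩ := (loop_gen h1 (loop_nx h1 h2) e).1 h2
  exact ⟨m + 1, by omega, by rw [Function.iterate_succ_apply, hm]; exact he⟩

theorem sqrt3_inv : (√3)⁻¹ * √3 = 1 := inv_mul_cancel₀ (by positivity)

/-- The support of all phases. -/
noncomputable def ES (p : ZMod l → ℤ × ℤ) (D : Finset (ℤ × ℤ)) (Q : Marks) (n : ℕ) : Finset Ed :=
  (PF p Q n 0).S ∪ (D.image Sum.inl ∪ D.image Sum.inr)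

theorem mem_ES_of {e : Ed} (h : epos e ∈ D) : e ∈ ES p D Q n := by
  refine mem_union_right _ ?_
  rcases e with v | v
  · exact mem_union_left _ (mem_image_of_mem _ h)
  · exact mem_union_right _ (mem_image_of_mem _ h)

theorem Hyp.sub (H : Hyp p D Q n d κ0 c r r1 r2) : (PW p Q n d c).S ⊆ (PF p Q n c).S := fun _ he =>
  (H.geo.full _).2 (H.geo.bdy _ he)

theorem Hyp.offF (H : Hyp p D Q n d κ0 c r r1 r2) : ∀ e ∉ ES p D Q n, ∀ b,
    (PF p Q n c).ph e b = 0 := by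
  intro e he b
  rw [ph_off (W := PF p Q n c) (fun h => he (mem_union_left _ h))]
  by_cases hc : c e = 0
  · show c e / 2 = 0
    rw [hc, zero_div]
  · exact absurd (mem_ES_of (H.supp e hc)) he

theorem Hyp.offW (H : Hyp p D Q n d κ0 c r r1 r2) : ∀ e ∉ ES p D Q n, ∀ b,
    (PW p Q n d c).ph e b = 0 := by
  intro e he b
  rw [ph_off (W := PW p Q n d c) (fun h => he (mem_union_left _ (H.sub h)))]
  by_cases hc : c e = 0
  · show c e / 2 = 0
    rw [hc, zero_div]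
  · exact absurd (mem_ES_of (H.supp e hc)) he

/-- The orbits which visit the squares near the holes stay near one hole. -/
theorem Hyp.vis {ω : Cfg} (hN : NC p Q n r1 r2 ω) {e : Ed} (hv : Vis (BB p Q n r1) ω e) :
    ∃ x, Vis {v | nm (v - hsite p Q n x) ≤ r1} ω e ∧
      ∀ i, nm (hdv ((nx ω)^[i] e) - hsite p Q n x) ≤ r2 := by
  obtain ⟨k, x, hx⟩ := hv
  exact ⟨x, ⟨k, hx⟩, fun i => orb_in (hN x) hx i⟩

theorem fL_one (H : Hyp p D Q n d κ0 c r r1 r2) {ω : Cfg} (hN : NC p Q n r1 r2 ω) {ι : Type}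
    [Fintype ι] {W : WC ι} (hW : W.c = c) {ℓ : Finset Ed} (hl : IsLoop ω ℓ)
    (hd : Disjoint ℓ W.S) (hv : VisL (BB p Q n r1) ℓ) : fL W.ph ω ℓ = 1 := by
  unfold fL
  apply cos_loop hl
  intro e he b
  rw [ph_off (fun h => Finset.disjoint_left.1 hd he h), hW]
  obtain ⟨x0, hx0, y, hy⟩ := hv
  obtain ⟨k, hk⟩ := (loop_gen hl he x0).1 hx0
  have : nm (hdv e - hsite p Q n y) ≤ r2 := by
    have := orb_in (hN y) (e := e) (k := k) (by rw [hk]; exact hy) 0
    exact this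
  rw [H.zero y e this, zero_div]

theorem strand_data {S : Finset Ed} {ω : Cfg} {e : Ed} (h : Returns (nx ω) S e) :
    1 ≤ ret (nx ω) S e ∧ (nx ω)^[ret (nx ω) S e] e ∈ S ∧
      ∀ i, 0 < i → i < ret (nx ω) S e → (nx ω)^[i] e ∉ S :=
  ⟨h.spec.1, h.spec.2, fun _ h1 h2 => ret_min h1 h2⟩

/-- The closed polygon: only the orbits away from the holes contribute. -/
theorem Hyp.F_eq (H : Hyp p D Q n d κ0 c r r1 r2) {ω : Cfg}
    (hg : ∀ e : Ed, ∃ ℓ, IsLoop ω ℓ ∧ e ∈ ℓ) (hN : NC p Q n r1 r2 ω) :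
    (PF p Q n c).X ω = Yp (PF p Q n c).S (ES p D Q n) (PF p Q n c).ph (BB p Q n r1) ω := by
  classical
  unfold WC.X
  rw [X_split H.offF (BB p Q n r1) ω, Zp_eq (P := fun _ => False)]
  · simp
  · intro ℓ h1 h2 h3
    exact fL_one H hN rfl h1 h2 h3
  · intro e he hv
    obtain ⟨x, -, hx⟩ := Hyp.vis hN hv
    obtain ⟨h1, h2, h3⟩ := strand_data (returns_of_fin hg he)
    have h4 := (H.tab x ω e _ h1 fun i _ => ?_).2 he h2 h3
    · rw [if_neg not_false]
      unfold fS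
      rw [h4, sqrt3_inv]
    · have := hx i
      have h5 : (nm (hdv ((nx ω)^[i] e) - hsite p Q n x) : ℝ) ≤ r2 := by exact_mod_cast this
      exact h5.trans H.r2n

open Classical in
/-- The polygon with holes: the factor of a hole is `0` if there is a face-to-face strand at the tip
near this hole. -/
theorem Hyp.W_eq (H : Hyp p D Q n d κ0 c r r1 r2) {ω : Cfg}
    (hg : ∀ e : Ed, ∃ ℓ, IsLoop ω ℓ ∧ e ∈ ℓ) (hN' : NC p Q n r r1 ω) (hN : NC p Q n r1 r2 ω) :
    (PW p Q n d c).X ω = (if ∃ x, FFW (PW p Q n d 0) x {v | nm (v - hsite p Q n x) ≤ r1} ω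
      then 0 else 1) * (PF p Q n c).X ω := by
  classical
  rw [H.F_eq hg hN, ← Yp_sub (S := (PW p Q n d c).S) (a := (PW p Q n d c).ph) H.sub]
  · unfold WC.X
    rw [X_split H.offW (BB p Q n r1) ω, mul_comm]
    congr 1
    set P : Ed → Prop := fun e => ∃ x, Vis {v | nm (v - hsite p Q n x) ≤ r1} ω e ∧
      e ∈ ((PW p Q n d c).w x).S ∧
      (nx ω)^[ret (nx ω) (PW p Q n d c).S e] e ∈ ((PW p Q n d c).w x).S ∧
      sg ((nx ω)^[ret (nx ω) (PW p Q n d c).S e] e) = sg e with hP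
    rw [Zp_eq (P := P)]
    · refine if_congr ?_ rfl rfl
      constructor
      · rintro ⟨e, he, hv, x, ⟨k, hk⟩, h1, h2, h3⟩
        obtain ⟨g1, g2, g3⟩ := strand_data (returns_of_fin hg he)
        refine ⟨x, e, _, g1, h1, h2, g3, ?_, h3⟩
        obtain ⟨i, hi, y, hy⟩ := gap_of_ff H.geo g1 h1 h2 g3 h3
        have hall := fun i => orb_in (hN x) (e := e) (k := k) hk i
        have hyx : y = x := by
          refine H.uniq (v := hdv ((nx ω)^[i] e)) ?_ (hall i)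
          have := H.dr; have := H.r01; have := H.r12; omega
        subst hyx
        intro j _
        exact orb_in (hN' y) (e := e) (k := i) (by have := H.dr; omega) j
      · rintro ⟨x, e, k, hk, h1, h2, h3, h4, h5⟩
        have he : e ∈ (PW p Q n d c).S := wS_sub _ x h1
        obtain ⟨g1, g2, g3⟩ := strand_data (returns_of_fin hg he)
        have hret : ret (nx ω) (PW p Q n d c).S e = k := by
          apply le_antisymm
          · exact ret_le hk (wS_sub _ x h2)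
          · by_contra hlt
            exact h3 _ g1 (by omega) g2
        refine ⟨e, he, ⟨0, x, h4 0 hk⟩, x, ⟨0, h4 0 hk⟩, h1, ?_, ?_⟩
        · rw [hret]; exact h2
        · rw [hret]; exact h5
    · intro ℓ h1 h2 h3
      exact fL_one H hN rfl h1 h2 h3
    · intro e he hv
      obtain ⟨x, hvx, hx⟩ := Hyp.vis hN hv
      obtain ⟨h1, h2, h3⟩ := strand_data (returns_of_fin hg he)
      have h4 := (H.tab x ω e _ h1 fun i _ => ?_).1 he h2 h3
      · unfold fS
        rw [h4]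
        have hiff : P e ↔ (e ∈ ((PW p Q n d c).w x).S ∧
            (nx ω)^[ret (nx ω) (PW p Q n d c).S e] e ∈ ((PW p Q n d c).w x).S ∧
            sg ((nx ω)^[ret (nx ω) (PW p Q n d c).S e] e) = sg e) := by
          constructor
          · rintro ⟨y, ⟨k, hk⟩, h5⟩
            have hyx : y = x := H.uniq (v := hdv ((nx ω)^[k] e)) (by
              have hk' : nm (hdv ((nx ω)^[k] e) - hsite p Q n y) ≤ r1 := hk
              have := H.r12; omega) (hx k)
            rw [hyx] at h5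
            exact h5
          · intro h5
            exact ⟨x, hvx, h5⟩
        by_cases hPe : P e
        · rw [if_pos (hiff.1 hPe), if_pos hPe, mul_zero]
        · rw [if_neg (fun h => hPe (hiff.2 h)), if_neg hPe, sqrt3_inv]
      · have := hx i
        have h5 : (nm (hdv ((nx ω)^[i] e) - hsite p Q n x) : ℝ) ≤ r2 := by exact_mod_cast this
        exact h5.trans H.r2n
  · intro e he he'
    obtain ⟨x, hx⟩ := H.geo.gap e ((H.geo.full e).1 he) he'
    refine ⟨x, ?_⟩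
    have := H.dr; have := H.r01; omega
  · intro e he
    refine (H.geo.ph c e ?_).symm
    rw [mem_sdiff]
    rintro ⟨h1, h2⟩
    exact h2 (he h1)

end poly

end Vale.Agent.P167.H662
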