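import Vale.Agent.P167.H662.Dir

/-!
# P167, block START: annuli without crossings, both colours
-/

namespace Vale.Agent.P167.H662

open MeasureTheory Finset Vale.Agent.P145.FB Vale.Agent.P153 Vale.Agent.P153.Topo Vale.Agent.P167.H871
  Vale.Agent.P167.H632
open Vale.Agent.P167.H166 (nx_step bxx mem_bxx)

theorem dep_NCc (c : Bool) (x : Pt) (r R : ℤ) : Dep (annS x r R) (NCc c x r R) := by
  rintro o o' ho h ⟨y, y', h1, h2, h3, h4⟩
  exact h ⟨y, y', h1, h2, h3, pconn_congr_annS (fun v hv h => by rw [ho v hv]; exact h) h4⟩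

theorem inc_NCc (c : Bool) (x : Pt) (r R : ℤ) : IncC c (NCc c x r R) := by
  rintro o o' ho h ⟨y, y', h1, h2, h3, h4⟩
  refine h ⟨y, y', h1, h2, h3, pconn_congr_annS (fun v _ h => ?_) h4⟩
  have := ho v
  revert this h
  cases c <;> cases o v <;> cases o' v <;> simp

theorem compl_NCc_sub (c : Bool) (x : Pt) (r R : ℤ) : (NCc c x r R)ᶜ ⊆ Arm (!c) x r R := by
  intro ω h
  simp only [NCc, Set.mem_compl_iff, Set.mem_ofPred_eq, not_not] at h
  obtain ⟨y, y', h1, h2, h3, h4⟩ := h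
  exact ⟨y, y', h1, h2.le, h3.ge, h4.mono subset_rfl (Set.subset_univ _)⟩

theorem ncc_compl_le : ∃ C α : ℝ, 0 < C ∧ 0 < α ∧ ∀ (c : Bool) (x : Pt) (r R : ℤ), 1 ≤ r → r ≤ R →
    μ.real (NCc c x r R)ᶜ ≤ C * ((r : ℝ) / R) ^ α := by
  obtain ⟨C, α, hC, hα, h⟩ := arm_le
  have := fair_mu.prob
  refine ⟨C, α, hC, hα, fun c x r R hr hrR => ?_⟩
  exact (measureReal_mono (compl_NCc_sub c x r R)).trans (h (!c) x r R hr hrR)

theorem ls_path (ω : Cfg) (e : Ed) (k : ℕ) :
    PConn (cs true ω) Set.univ (ls e) (ls ((nx ω)^[k] e)) := by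
  induction k with
  | zero => exact PConn.refl (Set.mem_univ _)
  | succ k ih =>
    rw [Function.iterate_succ_apply']
    rcases hv : ω (hdv ((nx ω)^[k] e)) with _ | _
    · rw [ls_nx hv]
      exact ih
    · have h1 := ((nx_step ω ((nx ω)^[k] e)).1 hv).1
      refine ih.tail ⟨h1.1, h1.2.1, ?_⟩ (Set.mem_univ _)
      rw [Set.mem_singleton_iff.1 h1.2.2]
      exact hv

theorem ls_near (e : Ed) (x : Pt) : nm (ls e - x) ≤ nm (hdv e - x) + 1 ∧
    nm (hdv e - x) - 1 ≤ nm (ls e - x) := by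
  obtain ⟨h1, h2, -⟩ := H166.corner e
  have k1 : nm (hdv e - x) ≤ nm (hdv e - x) := le_rfl
  have k2 : nm (ls e - x) ≤ nm (ls e - x) := le_rfl
  constructor
  · rw [H632.nm_le] at k1 ⊢
    simp only [Prod.fst_sub, Prod.snd_sub] at *
    omega
  · have : nm (hdv e - x) ≤ nm (ls e - x) + 1 := by
      rw [H632.nm_le] at k2 ⊢
      simp only [Prod.fst_sub, Prod.snd_sub] at *
      omega
    omega

theorem NoOrb_of_NCc {c : Bool} {x : Pt} {r R : ℤ} (hrR : r + 1 ≤ R) {ω : Cfg}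
    (h : ω ∈ NCc c x (r + 1) R) : NoOrb x r R ω := by
  cases c
  · intro e k
    have heven : ∀ e : Ed, ((ls e).1 + (ls e).2) % 2 = 0 := fun e => (H166.corner e).2.2.2.2.1
    have key : ∀ a b : Ed, PConn (cs true ω) Set.univ (ls a) (ls b) → nm (hdv a - x) ≤ r →
        nm (hdv b - x) ≤ R := by
      intro a b hab ha
      by_contra hb
      push Not at hb
      have h1 := (ls_near a x).1
      have h2 := (ls_near b x).2
      obtain ⟨w, w', k1, k2, k3, k4, -⟩ := crossing (b := x) hrR hab (by omega) (by omega)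
      refine h ⟨w, w', ?_, k1, k2, k4.mono subset_rfl Set.inter_subset_right⟩
      show _ = pr true
      rw [← k3.parity, heven a]
      rfl
    exact ⟨key _ _ (ls_path ω e k), key _ _ (ls_path ω e k).symm⟩
  · exact NoOrb_of_NCD hrR h

end Vale.Agent.P167.H662
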