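import Vale.Agent.P167.H662.Dec2
import Vale.Agent.P167.H662.Ncc
import Vale.Agent.P167.H685.Fin

/-!
# P167, block START: factorisation of the expectation
-/

namespace Vale.Agent.P167.H662

open MeasureTheory Finset Vale.Agent.P145.FB Vale.Agent.P153 Vale.Agent.P153.Topo Vale.Agent.P167.H871
  Vale.Agent.P167.H632
open Vale.Agent.P167.H166 (nx_step bxx mem_bxx)
open Vale.Agent.P167.H685 (s_fin)
open Vale.Agent.P167.H825
open Vale.Agent.P167.E6 (IsPolygon Encloses dir)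

/-! ### local events on disjoint sets -/

theorem real_inter_dep {F G : Finset Pt} (hFG : Disjoint F G) {A B : Set Mk} (hA : Dep F A)
    (hB : Dep G B) : μ.real (A ∩ B) = μ.real A * μ.real B := by
  classical
  have := fair_mu.prob
  have h1 := int_indep hA (f := B.indicator fun _ => (1 : ℝ)) (fun ω ω' h => ?_)
    ((measurable_const.indicator hB.meas).aestronglyMeasurable)
  · rw [integral_indicator hB.meas, integral_indicator hB.meas,
      Measure.restrict_restrict hB.meas, Set.inter_comm] at h1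
    simpa using h1
  · have h3 : ∀ v ∈ G, ω v = ω' v := fun v hv => h v fun hF => by
      exact Finset.disjoint_left.1 hFG (Finset.mem_coe.1 hF) hv
    by_cases hω : ω ∈ B
    · rw [Set.indicator_of_mem hω, Set.indicator_of_mem (hB _ _ h3 hω)]
    · rw [Set.indicator_of_notMem hω, Set.indicator_of_notMem fun h' =>
        hω (hB _ _ (fun v hv => (h3 v hv).symm) h')]

/-- Intersection of local events. -/
theorem dep_iInter {I : Type*} [DecidableEq I] (s : Finset I) (F : I → Finset Pt) (A : I → Set Mk)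
    (h : ∀ i ∈ s, Dep (F i) (A i)) : Dep (s.biUnion F) (⋂ i ∈ s, A i) := by
  intro o o' ho hA
  rw [Set.mem_iInter₂] at hA ⊢
  exact fun i hi => h i hi o o' (fun w hw => ho w (mem_biUnion.2 ⟨i, hi, hw⟩)) (hA i hi)

theorem real_iInter_dep {I : Type*} [DecidableEq I] (s : Finset I) (F : I → Finset Pt)
    (A : I → Set Mk) (h : ∀ i ∈ s, Dep (F i) (A i))
    (hd : ∀ i ∈ s, ∀ j ∈ s, i ≠ j → Disjoint (F i) (F j)) :
    μ.real (⋂ i ∈ s, A i) = ∏ i ∈ s, μ.real (A i) := by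
  have := fair_mu.prob
  induction s using Finset.induction_on with
  | empty => simp
  | insert a s ha ih =>
    rw [prod_insert ha, ← ih (fun i hi => h i (mem_insert_of_mem hi))
      (fun i hi j hj => hd i (mem_insert_of_mem hi) j (mem_insert_of_mem hj)),
      ← real_inter_dep _ (h a (mem_insert_self _ _))
        (dep_iInter s F A fun i hi => h i (mem_insert_of_mem hi))]
    · congr 1
      rw [Finset.set_biInter_insert]
    · rw [disjoint_biUnion_right]
      exact fun i hi => hd a (mem_insert_self _ _) i (mem_insert_of_mem hi)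
        (by rintro rfl; exact ha hi)

section poly

variable {l : ℕ} {p : ZMod l → ℤ × ℤ} {D : Finset (ℤ × ℤ)} {Q : Marks} {n d : ℕ} {κ0 : ℝ}
  {c : Ed → ℝ} {r r1 r2 : ℤ}

/-- The local event at the hole `x`: no face-to-face strand of the wall `x` near the hole. -/
def TT (p : ZMod l → ℤ × ℤ) (Q : Marks) (n d : ℕ) (r1 : ℤ) (x : Fin l × Fin (Q.m + 1)) : Set Mk :=
  {ω | ¬ FFW (PW p Q n d 0) x {v | nm (v - hsite p Q n x) ≤ r1} ω}

theorem dep_TT (x : Fin l × Fin (Q.m + 1)) : Dep (bxx (hsite p Q n x) r1) (TT p Q n d r1 x) := by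
  intro o o' ho h hF
  exact h (hF.congr fun v hv => (ho v (mem_bxx.2 hv)).symm)

/-- The event at the hole `x`, with the annulus inside. -/
def AA (p : ZMod l → ℤ × ℤ) (Q : Marks) (n d : ℕ) (cc : Bool) (r r1 : ℤ)
    (x : Fin l × Fin (Q.m + 1)) : Set Mk :=
  TT p Q n d r1 x ∩ NCc cc (hsite p Q n x) (r + 1) r1

theorem annS_sub (x₀ : Pt) (a b : ℤ) : annS x₀ a b ⊆ bxx x₀ b := fun _ hv =>
  mem_bxx.2 (mem_annS.1 hv).1

theorem dep_AA (cc : Bool) (x : Fin l × Fin (Q.m + 1)) :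
    Dep (bxx (hsite p Q n x) r1) (AA p Q n d cc r r1 x) :=
  (dep_TT x).inter ((dep_NCc _ _ _ _).mono (annS_sub _ _ _))

/-- All holes. -/
def AI (p : ZMod l → ℤ × ℤ) (Q : Marks) (n d : ℕ) (cc : Bool) (r r1 : ℤ) : Set Mk :=
  ⋂ x ∈ (univ : Finset (Fin l × Fin (Q.m + 1))), AA p Q n d cc r r1 x

/-- No crossing of the annuli of radii `a`, `b` around the holes. -/
def NI (p : ZMod l → ℤ × ℤ) (Q : Marks) (n : ℕ) (cc : Bool) (a b : ℤ) : Set Mk :=
  ⋂ x ∈ (univ : Finset (Fin l × Fin (Q.m + 1))), NCc cc (hsite p Q n x) a b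

theorem dep_NI (cc : Bool) (a b : ℤ) :
    Dep ((univ : Finset (Fin l × Fin (Q.m + 1))).biUnion fun x => annS (hsite p Q n x) a b)
      (NI p Q n cc a b) :=
  dep_iInter univ _ _ fun x _ => dep_NCc cc _ a b

theorem dep_AI (cc : Bool) :
    Dep ((univ : Finset (Fin l × Fin (Q.m + 1))).biUnion fun x => bxx (hsite p Q n x) r1)
      (AI p Q n d cc r r1) :=
  dep_iInter univ _ _ fun x _ => dep_AA cc x

theorem NC_of_NI {cc : Bool} {a b : ℤ} (h : a + 1 ≤ b) {ω : Cfg} (hω : ω ∈ NI p Q n cc (a + 1) b) :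
    NC p Q n a b ω := by
  intro x
  unfold NI at hω
  rw [Set.mem_iInter₂] at hω
  exact NoOrb_of_NCc h (hω x (mem_univ _))

theorem NoOrb.mono {z : ℤ × ℤ} {a a' b : ℤ} {ω : Cfg} (h : a' ≤ a) (hN : NoOrb z a b ω) :
    NoOrb z a' b ω := fun e k => ⟨fun h1 => (hN e k).1 (h1.trans h), fun h1 => (hN e k).2 (h1.trans h)⟩

/-- Radii and geometry. -/
structure Rad (r r1 r2 : ℤ) : Prop where
  h1 : r + 1 ≤ r1
  h2 : r1 + 2 ≤ r2

theorem Hyp.coe_BB (r1 : ℤ) : (BB p Q n r1) = (((univ : Finset (Fin l × Fin (Q.m + 1))).biUnion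
    fun x => bxx (hsite p Q n x) r1 : Finset Pt) : Set Pt) := by
  ext v
  simp only [BB, Set.mem_ofPred_eq, coe_biUnion, coe_univ, Set.mem_univ, Set.iUnion_true,
    Set.mem_iUnion, mem_coe, mem_bxx]

theorem Hyp.sep_balls (H : Hyp p D Q n d κ0 c r r1 r2) {x y : Fin l × Fin (Q.m + 1)} (h : x ≠ y) :
    Disjoint (bxx (hsite p Q n x) r2) (bxx (hsite p Q n y) r2) := by
  rw [Finset.disjoint_left]
  intro v h1 h2
  exact h (H.uniq (mem_bxx.1 h1) (mem_bxx.1 h2))

theorem bxx_mono {x : Pt} {a b : ℤ} (h : a ≤ b) : bxx x a ⊆ bxx x b := fun _ hv =>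
  mem_bxx.2 ((mem_bxx.1 hv).trans h)

/-- The closed polygon on the events at the holes. -/
theorem Hyp.F_int (H : Hyp p D Q n d κ0 c r r1 r2) (hR : Rad r r1 r2) (cc : Bool)
    (hm : AEStronglyMeasurable (PF p Q n c).X μ) :
    ∫ ω in AI p Q n d cc r r1 ∩ NI p Q n cc (r1 + 2) r2, (PF p Q n c).X ω ∂μ =
      μ.real (AI p Q n d cc r r1) * ∫ ω in NI p Q n cc (r1 + 2) r2, (PF p Q n c).X ω ∂μ := by
  classical
  set G := NI p Q n cc (r1 + 2) r2 with hG
  set F0 := (univ : Finset (Fin l × Fin (Q.m + 1))).biUnion fun x => bxx (hsite p Q n x) r1 with hF0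
  set f : Cfg → ℝ := G.indicator
    (Yp (PF p Q n c).S (ES p D Q n) (PF p Q n c).ph (BB p Q n r1)) with hf
  have hGm : MeasurableSet G := (dep_NI cc _ _).meas
  have hAm : MeasurableSet (AI p Q n d cc r r1) := (dep_AI cc).meas
  have hfX : f =ᵐ[μ] G.indicator (PF p Q n c).X := by
    filter_upwards [s_fin] with ω hg
    by_cases hω : ω ∈ G
    · rw [hf, Set.indicator_of_mem hω, Set.indicator_of_mem hω]
      refine (H.F_eq hg ?_).symm
      have h3 := hR.h2
      exact fun x => NoOrb.mono (by omega) (NC_of_NI (a := r1 + 1) (by omega)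
        (by rw [show r1 + 1 + 1 = r1 + 2 by ring]; exact hω) x)
    · rw [hf, Set.indicator_of_notMem hω, Set.indicator_of_notMem hω]
  have h1 := int_indep (F := F0) (dep_AI (r := r) (d := d) cc) (f := f) (fun ω ω' h => ?_)
    ((hm.indicator hGm).congr hfX.symm)
  · have h2 : ∫ ω, f ω ∂μ = ∫ ω in G, (PF p Q n c).X ω ∂μ := by
      rw [integral_congr_ae hfX, integral_indicator hGm]
    have h3 : ∫ ω in AI p Q n d cc r r1, f ω ∂μ =
        ∫ ω in AI p Q n d cc r r1 ∩ G, (PF p Q n c).X ω ∂μ := by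
      rw [integral_congr_ae (ae_restrict_of_ae hfX), integral_indicator hGm,
        Measure.restrict_restrict hGm, Set.inter_comm]
    rw [← h3, h1, h2]
  · have hY : Yp (PF p Q n c).S (ES p D Q n) (PF p Q n c).ph (BB p Q n r1) ω =
        Yp (PF p Q n c).S (ES p D Q n) (PF p Q n c).ph (BB p Q n r1) ω' := by
      apply Yp_loc
      intro v hv
      apply h
      rwa [Hyp.coe_BB] at hv
    have hag : ∀ v ∈ (univ : Finset (Fin l × Fin (Q.m + 1))).biUnion
        (fun x => annS (hsite p Q n x) (r1 + 2) r2), ω v = ω' v := by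
      intro v hv
      apply h
      intro hv'
      rw [mem_coe, hF0, mem_biUnion] at hv'
      rw [mem_biUnion] at hv
      obtain ⟨x, -, hx⟩ := hv
      obtain ⟨y, -, hy⟩ := hv'
      rw [mem_annS] at hx
      rw [mem_bxx] at hy
      have hxy : x = y := H.uniq hx.1 (by have := hR.h2; omega)
      subst hxy
      omega
    by_cases hω : ω ∈ G
    · rw [hf, Set.indicator_of_mem hω, Set.indicator_of_mem ((dep_NI cc _ _) _ _ hag hω), hY]
    · rw [hf, Set.indicator_of_notMem hω, Set.indicator_of_notMem fun h' =>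
        hω ((dep_NI cc _ _) _ _ (fun v hv => (hag v hv).symm) h')]

/-- **The factorisation with its error.** -/
theorem Hyp.dec (H : Hyp p D Q n d κ0 c r r1 r2) (hR : Rad r r1 r2) (cc : Bool)
    (hW : Integrable (PW p Q n d c).X μ) (hF : Integrable (PF p Q n c).X μ) :
    |∫ ω, (PW p Q n d c).X ω ∂μ - μ.real (AI p Q n d cc r r1) * ∫ ω, (PF p Q n c).X ω ∂μ| ≤
      (∫ ω in (NI p Q n cc (r + 1) r1 ∩ NI p Q n cc (r1 + 2) r2)ᶜ, |(PW p Q n d c).X ω| ∂μ) +
      μ.real (AI p Q n d cc r r1) *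
        ∫ ω in (NI p Q n cc (r1 + 2) r2)ᶜ, |(PF p Q n c).X ω| ∂μ := by
  classical
  have := fair_mu.prob
  set N1 := NI p Q n cc (r + 1) r1 with hN1
  set G := NI p Q n cc (r1 + 2) r2 with hG
  set A := AI p Q n d cc r r1 with hA
  have hGm : MeasurableSet G := (dep_NI cc _ _).meas
  have hN1m : MeasurableSet N1 := (dep_NI cc _ _).meas
  have hAm : MeasurableSet A := (dep_AI cc).meas
  have h1 : ∫ ω in N1 ∩ G, (PW p Q n d c).X ω ∂μ = ∫ ω in A ∩ G, (PF p Q n c).X ω ∂μ := by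
    rw [← integral_indicator (hN1m.inter hGm), ← integral_indicator (hAm.inter hGm)]
    apply integral_congr_ae
    filter_upwards [s_fin] with ω hg
    have hAN : ω ∈ A ↔ ω ∈ N1 ∧ ¬ ∃ x, FFW (PW p Q n d 0) x {v | nm (v - hsite p Q n x) ≤ r1} ω := by
      rw [hA, hN1]
      unfold AI NI AA TT
      simp only [Set.mem_iInter₂, mem_univ, forall_true_left, Set.mem_inter_iff, Set.mem_ofPred_eq,
        not_exists]
      exact ⟨fun h => ⟨fun x => (h x).2, fun x => (h x).1⟩, fun h x => ⟨h.2 x, h.1 x⟩⟩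
    by_cases hωG : ω ∈ G
    · by_cases hωN : ω ∈ N1
      · have hm0 : ω ∈ N1 ∩ G := ⟨hωN, hωG⟩
        rw [Set.indicator_of_mem hm0]
        have h3 := hR.h1
        have h4 := hR.h2
        have hW' := H.W_eq hg (NC_of_NI (by omega) hωN) (fun x => NoOrb.mono (by omega)
          (NC_of_NI (a := r1 + 1) (by omega)
          (by rw [show r1 + 1 + 1 = r1 + 2 by ring]; exact hωG) x))
        rw [hW']
        by_cases hex : ∃ x, FFW (PW p Q n d 0) x {v | nm (v - hsite p Q n x) ≤ r1} ω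
        · rw [if_pos hex, zero_mul, Set.indicator_of_notMem]
          exact fun h => (hAN.1 h.1).2 hex
        · have hm : ω ∈ A ∩ G := ⟨hAN.2 ⟨hωN, hex⟩, hωG⟩
          rw [if_neg hex, one_mul, Set.indicator_of_mem hm]
      · rw [Set.indicator_of_notMem (fun h : ω ∈ N1 ∩ G => hωN h.1),
          Set.indicator_of_notMem (fun h : ω ∈ A ∩ G => hωN (hAN.1 h.1).1)]
    · rw [Set.indicator_of_notMem (fun h : ω ∈ N1 ∩ G => hωG h.2),
        Set.indicator_of_notMem (fun h : ω ∈ A ∩ G => hωG h.2)]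
  have h2 := H.F_int hR cc hF.aestronglyMeasurable
  have h3 : ∫ ω, (PW p Q n d c).X ω ∂μ = (∫ ω in N1 ∩ G, (PW p Q n d c).X ω ∂μ) +
      ∫ ω in (N1 ∩ G)ᶜ, (PW p Q n d c).X ω ∂μ :=
    (integral_add_compl (hN1m.inter hGm) hW).symm
  have h4 : ∫ ω, (PF p Q n c).X ω ∂μ = (∫ ω in G, (PF p Q n c).X ω ∂μ) +
      ∫ ω in Gᶜ, (PF p Q n c).X ω ∂μ := (integral_add_compl hGm hF).symm
  have h5 : |∫ ω in (N1 ∩ G)ᶜ, (PW p Q n d c).X ω ∂μ| ≤
      ∫ ω in (N1 ∩ G)ᶜ, |(PW p Q n d c).X ω| ∂μ := abs_integral_le_integral_abs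
  have h6 : |∫ ω in Gᶜ, (PF p Q n c).X ω ∂μ| ≤
      ∫ ω in Gᶜ, |(PF p Q n c).X ω| ∂μ := abs_integral_le_integral_abs
  have h7 : (0 : ℝ) ≤ μ.real A := measureReal_nonneg
  rw [h3, h4, h1, h2]
  have h8 : μ.real A * ∫ ω in G, (PF p Q n c).X ω ∂μ + ∫ ω in (N1 ∩ G)ᶜ, (PW p Q n d c).X ω ∂μ -
      μ.real A * (∫ ω in G, (PF p Q n c).X ω ∂μ + ∫ ω in Gᶜ, (PF p Q n c).X ω ∂μ) =
      ∫ ω in (N1 ∩ G)ᶜ, (PW p Q n d c).X ω ∂μ - μ.real A * ∫ ω in Gᶜ, (PF p Q n c).X ω ∂μ := by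
    ring
  rw [h8]
  calc |∫ ω in (N1 ∩ G)ᶜ, (PW p Q n d c).X ω ∂μ - μ.real A * ∫ ω in Gᶜ, (PF p Q n c).X ω ∂μ|
      ≤ |∫ ω in (N1 ∩ G)ᶜ, (PW p Q n d c).X ω ∂μ| +
        |μ.real A * ∫ ω in Gᶜ, (PF p Q n c).X ω ∂μ| := abs_sub _ _
    _ ≤ _ := by
        rw [abs_mul, abs_of_nonneg h7]
        gcongr

end poly

end Vale.Agent.P167.H662
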