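import Vale.Agent.P167.H662.StartDefs

/-!
# P167, block START: geometry of the polygon with holes (statement)
-/

namespace Vale.Agent.P167.H662

open MeasureTheory Finset Filter
open Vale.Agent.P167.H825
open Vale.Agent.P167.E6 (IsPolygon Encloses dir)

/-- Exactly one of the two squares of `e` is in `D`. -/
def Bdy (D : Finset (ℤ × ℤ)) (e : Ed) : Prop := ¬ (hdv e ∈ D ↔ tlv e ∈ D)

/-- Geometry of the walls of `PW` and `PF`. -/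
structure GeoAt {l : ℕ} (p : ZMod l → ℤ × ℤ) (D : Finset (ℤ × ℤ)) (Q : Marks) (n d : ℕ)
    (κ0 : ℝ) : Prop where
  bdy : ∀ e ∈ (PW p Q n d 0).S, Bdy D e
  gap : ∀ e, Bdy D e → e ∉ (PW p Q n d 0).S → ∃ x, nm (hdv e - hsite p Q n x) ≤ d + 3
  far : ∀ x y, x ≠ y → κ0 * n ≤ (nm (hsite p Q n x - hsite p Q n y) : ℝ)
  farb : ∀ x, κ0 * n ≤ (nm (hsite p Q n x - bsite p Q n) : ℝ)
  ray : ∀ x, ∀ e ∈ ((PW p Q n d 0).w x).S, e ∈ Ray (pdir p x.1) (tsite p Q n d x) ∧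
    (hdv e ∈ D ↔ sg e = - os (pdir p x.1)) ∧ (tlv e ∈ D ↔ sg e = os (pdir p x.1))
  long : ∀ x, ∀ e ∈ Ray (pdir p x.1) (tsite p Q n d x),
    (nm (hdv e - tsite p Q n d x) : ℝ) ≤ κ0 * n → e ∈ ((PW p Q n d 0).w x).S
  tip : ∀ x, nm (tsite p Q n d x - hsite p Q n x) ≤ d + 1 ∧
    col (tsite p Q n d x) = col (bsite p Q n)
  full : ∀ e, e ∈ (PF p Q n 0).S ↔ Bdy D e
  ph : ∀ c e, e ∉ (PF p Q n 0).S \ (PW p Q n d 0).S → (PF p Q n c).ph e = (PW p Q n d c).ph e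

/-- **[GEO]** -/
def GEO : Prop :=
  ∀ (l : ℕ) [NeZero l] (p : ZMod l → ℤ × ℤ) (S₀ : Finset (ℤ × ℤ)), IsPolygon p → Encloses p S₀ →
  ∀ Q : Marks, Q.Ok → ∃ κ0 : ℝ, 0 < κ0 ∧ ∃ δ₁ : ℝ, 0 < δ₁ ∧ ∀ δ : ℝ, 0 < δ → δ < δ₁ →
  ∀ᶠ n : ℕ in atTop, GeoAt p (enl S₀ n) Q n ⌊δ * n⌋₊ κ0

end Vale.Agent.P167.H662
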