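import Vale.Agent.P167.H662.Dec3

/-!
# P167, block START: lower bound of the probability of the local events at the holes
-/

namespace Vale.Agent.P167.H662

open MeasureTheory Finset Vale.Agent.P145.FB Vale.Agent.P153 Vale.Agent.P153.Topo Vale.Agent.P167.H871
  Vale.Agent.P167.H632
open Vale.Agent.P167.H166 (nx_step bxx mem_bxx)
open Vale.Agent.P167.H685 (s_fin)
open Vale.Agent.P167.H825
open Vale.Agent.P167.E6 (IsPolygon Encloses dir)

section poly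

variable {l : ℕ} {p : ZMod l → ℤ × ℤ} {D : Finset (ℤ × ℤ)} {Q : Marks} {n d : ℕ} {κ0 : ℝ}
  {c : Ed → ℝ} {r r1 r2 : ℤ}

theorem sub_TT (H : Hyp p D Q n d κ0 c r r1 r2) (x : Fin l × Fin (Q.m + 1)) {cc : Bool}
    {r' R' L : ℤ} (h1 : (d : ℤ) + 3 ≤ r') (h2 : r' + 1 ≤ R') (h3 : R' + (d + 1) ≤ L)
    (h4 : (L : ℝ) ≤ κ0 * n) :
    TipD (pdir p x.1) (tsite p Q n d x) L ∩ NCc cc (hsite p Q n x) (r' + 1) R' ⊆
      TT p Q n d r1 x := by
  rintro ω ⟨hT, hN⟩ ⟨e, k, hk, he, he', hmid, hbox, hsg⟩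
  apply hT
  have hNo := NoOrb_of_NCc h2 hN
  obtain ⟨i, hi, y, hy⟩ := gap_of_ff (c := 0) H.geo hk he he' hmid hsg
  have hyx : y = x := by
    refine H.uniq (v := hdv ((nx ω)^[i] e)) ?_ ?_
    · have := H.dr; have := H.r01; have := H.r12; omega
    · have h5 : nm (hdv ((nx ω)^[i] e) - hsite p Q n x) ≤ r1 := hbox i hi
      have := H.r12; omega
  subst hyx
  have hall : ∀ j, nm (hdv ((nx ω)^[j] e) - tsite p Q n d y) ≤ L := by
    intro j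
    have h5 := orb_in hNo (e := e) (k := i) (by omega) j
    have h6 := nm_tri (hdv ((nx ω)^[j] e)) (hsite p Q n y) (tsite p Q n d y)
    have h7 := (H.geo.tip y).1
    rw [nm_comm] at h7
    omega
  refine ⟨e, k, hk, (H.geo.ray y e he).1, (H.geo.ray y _ he').1, ?_, fun j _ => hall j, hsg⟩
  intro j hj0 hjk hjR
  apply hmid j hj0 hjk
  apply wS_sub _ y
  apply H.geo.long y _ hjR
  have : (nm (hdv ((nx ω)^[j] e) - tsite p Q n d y) : ℝ) ≤ L := by exact_mod_cast hall j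
  linarith

/-- Lower bound at one hole. -/
theorem AA_ge (H : Hyp p D Q n d κ0 c r r1 r2) (x : Fin l × Fin (Q.m + 1)) {cc : Bool}
    (hcc : cc = col (bsite p Q n)) {r' R' L R : ℤ} {c1 : ℝ} (hc1 : 0 ≤ c1)
    (hglue : ∀ (F : Finset Pt) (G : Set Mk), Dep F G → IncC (col (tsite p Q n d x)) G →
      c1 * (μ.real (TipD (pdir p x.1) (tsite p Q n d x) R) * μ.real G) ≤
        μ.real (TipD (pdir p x.1) (tsite p Q n d x) L ∩ G))
    (h1 : (d : ℤ) + 3 ≤ r') (h2 : r' + 1 ≤ R') (h3 : R' + (d + 1) ≤ L) (h4 : (L : ℝ) ≤ κ0 * n)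
    (hp1 : μ.real (NCc cc (hsite p Q n x) (r' + 1) R')ᶜ ≤ 1 / 4)
    (hp2 : μ.real (NCc cc (hsite p Q n x) (r + 1) r1)ᶜ ≤ 1 / 4) :
    c1 / 2 * μ.real (TipD (pdir p x.1) (tsite p Q n d x) R) ≤ μ.real (AA p Q n d cc r r1 x) := by
  have := fair_mu.prob
  set G1 := NCc cc (hsite p Q n x) (r' + 1) R' with hG1
  set G2 := NCc cc (hsite p Q n x) (r + 1) r1 with hG2
  have hd1 := dep_NCc cc (hsite p Q n x) (r' + 1) R'
  have hd2 := dep_NCc cc (hsite p Q n x) (r + 1) r1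
  have hcol : cc = col (tsite p Q n d x) := by rw [hcc, (H.geo.tip x).2]
  have h5 := hglue _ (G1 ∩ G2) (hd1.inter' hd2) (by
    rw [← hcol]
    exact (inc_NCc cc _ _ _).inter (inc_NCc cc _ _ _))
  have h6 : 1 / 2 ≤ μ.real (G1 ∩ G2) := by
    have h7 : μ.real (G1 ∩ G2)ᶜ ≤ 1 / 4 + 1 / 4 := by
      rw [Set.compl_inter]
      exact (measureReal_union_le _ _).trans (add_le_add hp1 hp2)
    rw [probReal_compl_eq_one_sub (hd1.meas.inter hd2.meas)] at h7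
    linarith
  have h8 : TipD (pdir p x.1) (tsite p Q n d x) L ∩ (G1 ∩ G2) ⊆ AA p Q n d cc r r1 x := by
    rintro ω ⟨k1, k2, k3⟩
    exact ⟨sub_TT H x h1 h2 h3 h4 ⟨k1, k2⟩, k3⟩
  have h9 : (0 : ℝ) ≤ μ.real (TipD (pdir p x.1) (tsite p Q n d x) R) := measureReal_nonneg
  calc c1 / 2 * μ.real (TipD (pdir p x.1) (tsite p Q n d x) R)
      = c1 * (μ.real (TipD (pdir p x.1) (tsite p Q n d x) R) * (1 / 2)) := by ring
    _ ≤ c1 * (μ.real (TipD (pdir p x.1) (tsite p Q n d x) R) * μ.real (G1 ∩ G2)) := by gcongr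
    _ ≤ _ := h5
    _ ≤ _ := measureReal_mono h8

theorem AI_eq (H : Hyp p D Q n d κ0 c r r1 r2) (cc : Bool) :
    μ.real (AI p Q n d cc r r1) = ∏ x, μ.real (AA p Q n d cc r r1 x) := by
  unfold AI
  rw [real_iInter_dep univ (fun x => bxx (hsite p Q n x) r1) _ fun x _ => dep_AA cc x]
  intro x _ y _ hxy
  exact (H.sep_balls hxy).mono (bxx_mono H.r12) (bxx_mono H.r12)

theorem AI_ge (H : Hyp p D Q n d κ0 c r r1 r2) {cc : Bool} (hcc : cc = col (bsite p Q n))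
    {r' R' L R : ℤ} {c1 : ℝ} (hc1 : 0 ≤ c1)
    (hglue : ∀ (r : Fin 4) (z : Pt) (F : Finset Pt) (G : Set Mk), Dep F G → IncC (col z) G →
      c1 * (μ.real (TipD r z R) * μ.real G) ≤ μ.real (TipD r z L ∩ G))
    (h1 : (d : ℤ) + 3 ≤ r') (h2 : r' + 1 ≤ R') (h3 : R' + (d + 1) ≤ L) (h4 : (L : ℝ) ≤ κ0 * n)
    (hp1 : ∀ x : Pt, μ.real (NCc cc x (r' + 1) R')ᶜ ≤ 1 / 4)
    (hp2 : ∀ x : Pt, μ.real (NCc cc x (r + 1) r1)ᶜ ≤ 1 / 4) :
    (c1 / 2) ^ (Fintype.card (Fin l × Fin (Q.m + 1))) *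
      ∏ x : Fin l × Fin (Q.m + 1), μ.real (TipD (pdir p x.1) (tsite p Q n d x) R) ≤
      μ.real (AI p Q n d cc r r1) := by
  rw [AI_eq H, ← Finset.card_univ, ← prod_const, ← prod_mul_distrib]
  refine prod_le_prod (fun x _ => ?_) fun x _ => ?_
  · have : (0 : ℝ) ≤ μ.real (TipD (pdir p x.1) (tsite p Q n d x) R) := measureReal_nonneg
    positivity
  · exact AA_ge H x hcc hc1 (fun F G => hglue _ _ F G) h1 h2 h3 h4 (hp1 _) (hp2 _)

/-- The annuli are not crossed with large probability. -/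
theorem NI_compl_le {C α : ℝ} (h : ∀ (c : Bool) (x : Pt) (r R : ℤ), 1 ≤ r → r ≤ R →
    μ.real (NCc c x r R)ᶜ ≤ C * ((r : ℝ) / R) ^ α) (cc : Bool) {a b : ℤ} (ha : 1 ≤ a)
    (hab : a ≤ b) : μ.real (NI p Q n cc a b)ᶜ ≤
      Fintype.card (Fin l × Fin (Q.m + 1)) * (C * ((a : ℝ) / b) ^ α) := by
  have := fair_mu.prob
  have h1 : (NI p Q n cc a b)ᶜ ⊆
      ⋃ x ∈ (univ : Finset (Fin l × Fin (Q.m + 1))), (NCc cc (hsite p Q n x) a b)ᶜ := by
    intro ω hω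
    rw [NI, Set.mem_compl_iff, Set.mem_iInter₂] at hω
    push Not at hω
    obtain ⟨x, hx, hx'⟩ := hω
    exact Set.mem_iUnion₂.2 ⟨x, hx, hx'⟩
  calc μ.real (NI p Q n cc a b)ᶜ ≤
        μ.real (⋃ x ∈ (univ : Finset (Fin l × Fin (Q.m + 1))), (NCc cc (hsite p Q n x) a b)ᶜ) :=
        measureReal_mono h1 (measure_ne_top _ _)
    _ ≤ ∑ x ∈ (univ : Finset (Fin l × Fin (Q.m + 1))), μ.real (NCc cc (hsite p Q n x) a b)ᶜ :=
        measureReal_biUnion_finset_le _ _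
    _ ≤ ∑ _x ∈ (univ : Finset (Fin l × Fin (Q.m + 1))), C * ((a : ℝ) / b) ^ α :=
        sum_le_sum fun x _ => h cc _ a b ha hab
    _ = _ := by rw [sum_const, nsmul_eq_mul, Finset.card_univ]

end poly

end Vale.Agent.P167.H662
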