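import Vale.Agent.P167.H662.Low
import Vale.Agent.P167.H199.MeasX

/-!
# P167, block START: assembly
-/

namespace Vale.Agent.P167.H662

open MeasureTheory Finset Filter Vale.Agent.P145.FB Vale.Agent.P153 Vale.Agent.P153.Topo
  Vale.Agent.P167.H871 Vale.Agent.P167.H632
open Vale.Agent.P167.H166 (nx_step bxx mem_bxx)
open Vale.Agent.P167.H685 (s_fin)
open Vale.Agent.P167.H825
open Vale.Agent.P167.BR (VD XD wp wl ws mass)
open Vale.Agent.P167.E6 (IsPolygon Encloses dir)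

theorem cos_p3 : Real.cos (Real.pi / 3) ≠ 0 := by rw [Real.cos_pi_div_three]; norm_num

theorem cos_p6 : Real.cos (Real.pi / 6) ≠ 0 := by rw [Real.cos_pi_div_six]; positivity

theorem VD_zero (D : Finset (ℤ × ℤ)) (b : ℤ × ℤ) : VD D b (dv 0) = 1 := by
  have := fair_mu.prob
  have h0 : ∀ z, dv (0 : Ed → ℝ) z = 0 := fun z => by simp [dv]
  have h1 : ∀ ω, XD D b (dv 0) ω = 1 := by
    intro ω
    unfold XD
    refine prod_eq_one fun A _ => ?_
    have hm : mass D b (dv 0) A = 0 := by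
      unfold mass
      refine sum_eq_zero fun z _ => ?_
      rw [h0]
      exact ite_self 0
    rw [hm]
    unfold wp wl ws
    split_ifs
    · rw [add_zero, div_self cos_p3]
    · rw [add_zero, div_self cos_p6]
  unfold VD
  simp only [h1]
  simp

/-- A square near the hole which is not in the domain. -/
theorem exists_off {l : ℕ} {p : ZMod l → ℤ × ℤ} {D : Finset (ℤ × ℤ)} {Q : Marks} {n d : ℕ} {κ0 : ℝ}
    (geo : GeoAt p D Q n d κ0) (hn : 1 ≤ κ0 * n) (x : Fin l × Fin (Q.m + 1)) :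
    ∃ v ∉ D, nm (v - hsite p Q n x) ≤ d + 3 := by
  -- the first edge of the ray
  obtain ⟨e, he, h1, h2⟩ : ∃ e ∈ Ray (pdir p x.1) (tsite p Q n d x),
      nm (hdv e - tsite p Q n d x) ≤ 1 ∧ nm (tlv e - tsite p Q n d x) ≤ 1 := by
    generalize tsite p Q n d x = z
    generalize pdir p x.1 = r
    obtain ⟨a, b⟩ := z
    have hc : ∀ v : ℤ × ℤ, (a - 1 ≤ v.1 ∧ v.1 ≤ a + 1 ∧ b - 1 ≤ v.2 ∧ v.2 ≤ b + 1) →
        nm (v - (a, b)) ≤ 1 := by
      intro v hv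
      rw [H632.nm_le]
      simp only [Prod.fst_sub, Prod.snd_sub]
      omega
    fin_cases r
    · refine ⟨Sum.inr (a, b - 1), ⟨a, le_rfl, rfl⟩, hc _ ?_, hc _ ?_⟩ <;>
        simp only [hdv, tlv] <;> split_ifs <;> omega
    · refine ⟨Sum.inl (a - 1, b), ⟨b, le_rfl, rfl⟩, hc _ ?_, hc _ ?_⟩ <;>
        simp only [hdv, tlv] <;> split_ifs <;> omega
    · refine ⟨Sum.inr (a - 1, b - 1), ⟨a - 1, by simp, rfl⟩, hc _ ?_, hc _ ?_⟩ <;>
        simp only [hdv, tlv] <;> split_ifs <;> omega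
    · refine ⟨Sum.inl (a - 1, b - 1), ⟨b - 1, by simp, rfl⟩, hc _ ?_, hc _ ?_⟩ <;>
        simp only [hdv, tlv] <;> split_ifs <;> omega
  have h3 := geo.long x e he (by
    have : (nm (hdv e - tsite p Q n d x) : ℝ) ≤ 1 := by exact_mod_cast h1
    linarith)
  have h4 := geo.bdy e (wS_sub _ x h3)
  have h5 := (geo.tip x).1
  by_cases h6 : hdv e ∈ D
  · have h7 : tlv e ∉ D := fun h => h4 ⟨fun _ => h, fun _ => h6⟩
    refine ⟨tlv e, h7, ?_⟩
    have := nm_tri (tlv e) (tsite p Q n d x) (hsite p Q n x)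
    omega
  · refine ⟨hdv e, h6, ?_⟩
    have := nm_tri (hdv e) (tsite p Q n d x) (hsite p Q n x)
    omega

theorem epos_near (e : Ed) : nm (epos e - hdv e) ≤ 1 := by
  rw [H632.nm_le]
  rcases e with ⟨x, y⟩ | ⟨x, y⟩ <;> simp only [hdv, epos] <;> split_ifs <;>
    simp only [Prod.fst_sub, Prod.snd_sub] <;> omega

theorem GeoAt.mono {l : ℕ} {p : ZMod l → ℤ × ℤ} {D : Finset (ℤ × ℤ)} {Q : Marks} {n d : ℕ}
    {κ0 κ : ℝ} (geo : GeoAt p D Q n d κ0) (h : κ ≤ κ0) : GeoAt p D Q n d κ := by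
  have h1 : κ * n ≤ κ0 * n := by gcongr
  exact ⟨geo.bdy, geo.gap, fun x y hxy => h1.trans (geo.far x y hxy), fun x => h1.trans (geo.farb x),
    geo.ray, fun x e he hn => geo.long x e he (hn.trans h1), geo.tip, geo.full, geo.ph⟩

theorem TabAt.mono {l : ℕ} {p : ZMod l → ℤ × ℤ} {Q : Marks} {n d : ℕ}
    {κ0 κ : ℝ} {c : Ed → ℝ} (tab : TabAt p Q n d κ0 c) (h : κ ≤ κ0) : TabAt p Q n d κ c := by
  have h1 : κ * n ≤ κ0 * n := by gcongr
  exact fun x ω e k hk hi => tab x ω e k hk fun i hik => (hi i hik).trans h1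

theorem FlowIn.mono {D : Finset (ℤ × ℤ)} {κ B B' : ℝ} {n : ℕ} {c : Ed → ℝ} (h : FlowIn D κ B n c)
    (hB : B ≤ B') : FlowIn D κ B' n c :=
  ⟨h.sup, fun e => (h.cle e).trans (by gcongr), fun z => (h.dle z).trans (by gcongr)⟩

theorem flowIn_zero (D : Finset (ℤ × ℤ)) (κ : ℝ) {B : ℝ} (hB : 0 ≤ B) (n : ℕ) :
    FlowIn D κ B n 0 := by
  refine ⟨fun e he => absurd rfl he, fun e => ?_, fun z => ?_⟩
  · simp only [Pi.zero_apply, abs_zero]; positivity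
  · have : dv (0 : Ed → ℝ) z = 0 := by simp [dv]
    rw [this, abs_zero]; positivity

/-- The hypotheses at one scale. -/
theorem hyp_of {l : ℕ} {p : ZMod l → ℤ × ℤ} {D : Finset (ℤ × ℤ)} {Q : Marks} {n d : ℕ}
    {κ0 κ B : ℝ} {c : Ed → ℝ} {r r1 r2 : ℤ} (hκ : 0 ≤ κ) (geo : GeoAt p D Q n d κ0)
    (tab : TabAt p Q n d κ0 c) (hc : FlowIn D κ B n c) (hn : 1 ≤ κ0 * n) (hr : (d : ℤ) + 3 ≤ r)
    (h01 : r ≤ r1) (h12 : r1 ≤ r2) (hsep : (2 * r2 : ℝ) < κ0 * n)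
    (hz : (r2 + d + 4 : ℝ) ≤ κ * n) : Hyp p D Q n d κ0 c r r1 r2 := by
  refine ⟨geo, tab, fun x e he => ?_, fun e he => ?_, hr, h01, h12, hsep⟩
  · by_contra hce
    obtain ⟨v, hv, hvx⟩ := exists_off geo hn x
    apply hv
    apply hc.sup e hce
    have h1 := nm_tri v (hsite p Q n x) (epos e)
    have h2 := nm_tri (hsite p Q n x) (hdv e) (epos e)
    have h3 := epos_near e
    rw [nm_comm] at h3
    rw [nm_comm] at he
    have h4 : nm (v - epos e) ≤ r2 + d + 4 := by omega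
    have h5 : (nm (v - epos e) : ℝ) ≤ r2 + d + 4 := by exact_mod_cast h4
    linarith
  · apply hc.sup e he
    rw [sub_self]
    have : nm (0 : ℤ × ℤ) = 0 := by simp [nm]
    rw [this]
    push_cast
    positivity

/-- The numerical part of the assembly. -/
theorem num {M c0 cφ ε θ φ Vn T Φ E0 I VDc FI : ℝ} (hM : 0 < M) (hc0 : 0 < c0) (hcφ : 0 < cφ)
    (hθ : 0 ≤ θ) (hφ : 0 ≤ φ) (hT : 0 ≤ T) (hΦ : 0 ≤ Φ)
    (h1 : cφ * T ≤ φ) (h2 : c0 * Φ ≤ Vn)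
    (hI : |I - φ * FI| ≤ M * θ * T * Φ + φ * (M * θ * Φ)) (hFI : FI = VDc * Vn)
    (hFI' : |FI| ≤ M * Φ)
    (hE : |E0 - φ * Vn| ≤ M * θ * T * Φ + φ * (M * θ * Φ))
    (hθ1 : θ * (M * (1 / (cφ * c0) + 1 / c0)) ≤ 1 / 2)
    (hθ2 : 2 * (θ * (M * (1 / (cφ * c0) + 1 / c0))) * (1 + M / c0) ≤ ε) :
    1 / 2 * (cφ * T * (c0 * Φ)) ≤ E0 ∧ |I - E0 * VDc| ≤ ε * E0 := by
  have hV : 0 ≤ Vn := le_trans (by positivity) h2
  set M1 := M * (1 / (cφ * c0) + 1 / c0) with hM1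
  have hM1p : 0 < M1 := by positivity
  have hTΦ : T * Φ ≤ 1 / (cφ * c0) * (φ * Vn) := by
    have : (cφ * T) * (c0 * Φ) ≤ φ * Vn := mul_le_mul h1 h2 (by positivity) hφ
    rw [one_div, ← div_eq_inv_mul, le_div_iff₀ (by positivity)]
    linarith
  have hφΦ : φ * Φ ≤ 1 / c0 * (φ * Vn) := by
    have : φ * (c0 * Φ) ≤ φ * Vn := mul_le_mul_of_nonneg_left h2 hφ
    rw [one_div, ← div_eq_inv_mul, le_div_iff₀ hc0]
    linarith
  have herr : M * θ * T * Φ + φ * (M * θ * Φ) ≤ θ * M1 * (φ * Vn) := by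
    have h3 : M * θ * (T * Φ) ≤ M * θ * (1 / (cφ * c0) * (φ * Vn)) := by gcongr
    have h4 : M * θ * (φ * Φ) ≤ M * θ * (1 / c0 * (φ * Vn)) := by gcongr
    have h5 : θ * M1 * (φ * Vn) = M * θ * (1 / (cφ * c0) * (φ * Vn)) +
        M * θ * (1 / c0 * (φ * Vn)) := by rw [hM1]; ring
    rw [h5]
    linarith
  have hX : 0 ≤ φ * Vn := by positivity
  have hE' : |E0 - φ * Vn| ≤ θ * M1 * (φ * Vn) := hE.trans herr
  have hE1 : φ * Vn ≤ 2 * E0 := by
    have h3 : θ * M1 * (φ * Vn) ≤ 1 / 2 * (φ * Vn) := mul_le_mul_of_nonneg_right hθ1 hX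
    have h4 := (abs_le.1 hE').1
    linarith
  have hE2 : 0 ≤ E0 := by linarith
  refine ⟨?_, ?_⟩
  · have : (cφ * T) * (c0 * Φ) ≤ φ * Vn := mul_le_mul h1 h2 (by positivity) hφ
    linarith
  · -- the product with VD
    have hVDΦ : |VDc| * Φ ≤ M / c0 * Φ := by
      have h3 : |VDc| * Vn ≤ M * Φ := by
        rw [← abs_of_nonneg hV, ← abs_mul, ← hFI]
        exact hFI'
      have h4 : |VDc| * (c0 * Φ) ≤ |VDc| * Vn := mul_le_mul_of_nonneg_left h2 (abs_nonneg _)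
      rw [div_mul_eq_mul_div, le_div_iff₀ hc0]
      linarith
    have h5 : |VDc| * |E0 - φ * Vn| ≤ M / c0 * (θ * M1 * (φ * Vn)) := by
      calc |VDc| * |E0 - φ * Vn| ≤ |VDc| * (M * θ * T * Φ + φ * (M * θ * Φ)) := by gcongr
        _ = (M * θ * T + φ * (M * θ)) * (|VDc| * Φ) := by ring
        _ ≤ (M * θ * T + φ * (M * θ)) * (M / c0 * Φ) := by gcongr
        _ = M / c0 * (M * θ * T * Φ + φ * (M * θ * Φ)) := by ring
        _ ≤ _ := by gcongr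
    have h6 : |I - E0 * VDc| ≤ |I - φ * FI| + |VDc| * |E0 - φ * Vn| := by
      have h7 : I - E0 * VDc = (I - φ * FI) - VDc * (E0 - φ * Vn) := by rw [hFI]; ring
      rw [h7, ← abs_mul]
      exact abs_sub _ _
    calc |I - E0 * VDc| ≤ θ * M1 * (φ * Vn) + M / c0 * (θ * M1 * (φ * Vn)) :=
          h6.trans (add_le_add (hI.trans herr) h5)
      _ = θ * M1 * (1 + M / c0) * (φ * Vn) := by ring
      _ ≤ θ * M1 * (1 + M / c0) * (2 * E0) := by gcongr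
      _ = 2 * (θ * M1) * (1 + M / c0) * E0 := by ring
      _ ≤ ε * E0 := by gcongr

end Vale.Agent.P167.H662
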