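import Vale.Agent.P167.H662.Start
import Vale.Agent.P167.H662.StartDefs2

/-!
# P167, block START: assembly, final theorem
-/

namespace Vale.Agent.P167.H662

open MeasureTheory Finset Filter Vale.Agent.P145.FB Vale.Agent.P153 Vale.Agent.P153.Topo
  Vale.Agent.P167.H871 Vale.Agent.P167.H632
open Vale.Agent.P167.H166 (nx_step bxx mem_bxx)
open Vale.Agent.P167.H825
open Vale.Agent.P167.BR (VD)
open Vale.Agent.P167.E6 (IsPolygon Encloses dir)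

theorem exists_ratio {C α t : ℝ} (hα : 0 < α) (ht : 0 < t) :
    ∃ K : ℕ, 2 ≤ K ∧ C * ((1 : ℝ) / K) ^ α ≤ t := by
  have h1 : Tendsto (fun x : ℝ => C * (1 / x) ^ α) atTop (nhds 0) := by
    have h2 : Tendsto (fun x : ℝ => (1 : ℝ) / x) atTop (nhds 0) :=
      Tendsto.div_atTop tendsto_const_nhds tendsto_id
    have h3 := (h2.rpow_const (p := α) (Or.inr hα.le)).const_mul C
    rwa [Real.zero_rpow hα.ne', mul_zero] at h3
  have h2 : ∀ᶠ K : ℕ in atTop, C * (1 / (K : ℝ)) ^ α ≤ t :=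
    tendsto_natCast_atTop_atTop.eventually (h1.eventually_le_const ht)
  obtain ⟨K, hK, hK2⟩ := (h2.and (eventually_ge_atTop 2)).exists
  exact ⟨K, hK2, hK⟩

theorem ratio_eq {a : ℤ} {K : ℕ} (ha : 1 ≤ a) (hK : 2 ≤ K) :
    ((a : ℝ) / ((K * a : ℤ) : ℝ)) = 1 / K := by
  have h1 : (a : ℝ) ≠ 0 := by
    have : (0 : ℤ) < a := by omega
    exact_mod_cast this.ne'
  have h2 : (K : ℝ) ≠ 0 := by
    have : 0 < K := by omega
    exact_mod_cast this.ne'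
  push_cast
  field_simp

/-- **[SYM], the part which is used.** -/
structure SYM3 : Prop where
  tip_ge : ∀ (r : Fin 4) (z : Pt) (R : ℤ), μ.real (TipOk 0 (R + 1)) ≤ μ.real (TipD r z R)
  flat_ge : ∀ (r : Fin 4) (z : Pt) (R : ℤ), μ.real (FlatD 2 0 (R + 1)) ≤ μ.real (FlatD r z R)
  glue : ∀ Λ : ℕ, ∃ c : ℝ, 0 < c ∧ ∃ R0 : ℤ, ∀ (r : Fin 4) (z : Pt) (R L : ℤ), R0 ≤ R →
    L + 1 ≤ Λ * R → ∀ (F : Finset Pt) (G : Set Mk), Dep F G → IncC (col z) G →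
      c * (μ.real (TipD r z R) * μ.real G) ≤ μ.real (TipD r z L ∩ G)

theorem SYM.three (h : SYM) : SYM3 := ⟨h.tip_ge, h.flat_ge, h.glue⟩

/-- All radii at one scale. -/
structure Nums (n d : ℕ) (R r r1 r2 L : ℤ) (K K2 : ℕ) (κ κ0 : ℝ) : Prop where
  hR : 1 ≤ R
  dR : (d : ℤ) + 4 ≤ 11 * R
  Rd : 4 * R ≤ d
  d1 : 19 < d
  hr : r = 2 * d + 4
  hr1 : r1 = K2 * (r + 1)
  hr2 : r2 = K2 * (r1 + 2)
  hL : L = K * (d + 4) + (d + 1)
  sep : (2 * r2 : ℝ) < κ0 * n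
  hz : (r2 + d + 4 : ℝ) ≤ κ * n
  hLκ : (L : ℝ) ≤ κ0 * n
  hLR : L + 1 ≤ ((11 * (K + 1) : ℕ) : ℤ) * R

theorem nums {n : ℕ} {δ κ κ0 : ℝ} {K K2 : ℕ} (hK : 2 ≤ K) (hK2 : 2 ≤ K2) (hδ : 0 < δ)
    (hδ4 : δ < κ0 / (8 * K2 ^ 2)) (hδ5 : δ < κ / (4 * K2 ^ 2 + 2)) (hδ6 : δ < κ0 / (2 * (K + 1)))
    (hδn : 20 ≤ δ * n) {d : ℕ} {R : ℤ} (hd : d = ⌊δ * n⌋₊) (hR : R = ⌊δ * n / 4⌋) :
    ∃ r r1 r2 L : ℤ, Nums n d R r r1 r2 L K K2 κ κ0 := by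
  have hK2r : (2 : ℝ) ≤ K2 := by exact_mod_cast hK2
  have hnp : (0 : ℝ) < n := by
    by_contra h
    have h1 : (n : ℝ) = 0 := le_antisymm (not_lt.1 h) (by positivity)
    rw [h1] at hδn
    norm_num at hδn
  have hd1 : (d : ℝ) ≤ δ * n := by rw [hd]; exact Nat.floor_le (by positivity)
  have hd2 : δ * n < d + 1 := by rw [hd]; exact Nat.lt_floor_add_one _
  have hR1 : (R : ℝ) ≤ δ * n / 4 := by rw [hR]; exact Int.floor_le _
  have hR2 : δ * n / 4 < R + 1 := by rw [hR]; exact Int.lt_floor_add_one _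
  have hdR : (d : ℤ) < 4 * (R + 1) := by
    have : (d : ℝ) < 4 * (R + 1) := by linarith
    exact_mod_cast this
  have hRd : 4 * R < (d : ℤ) + 1 := by
    have : 4 * (R : ℝ) < d + 1 := by linarith
    exact_mod_cast this
  have hd19 : 19 < d := by
    have : (19 : ℝ) < d := by linarith
    exact_mod_cast this
  have hd19' : (19 : ℝ) < d := by exact_mod_cast hd19
  obtain ⟨r, hr⟩ : ∃ r : ℤ, r = 2 * d + 4 := ⟨_, rfl⟩
  obtain ⟨r1, hr1⟩ : ∃ r1 : ℤ, r1 = K2 * (r + 1) := ⟨_, rfl⟩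
  obtain ⟨r2, hr2⟩ : ∃ r2 : ℤ, r2 = K2 * (r1 + 2) := ⟨_, rfl⟩
  obtain ⟨L, hL⟩ : ∃ L : ℤ, L = K * (d + 4) + (d + 1) := ⟨_, rfl⟩
  have hr2le : (r2 : ℝ) ≤ 4 * K2 ^ 2 * (δ * n) := by
    have h1 : (r2 : ℝ) = K2 * (K2 * (2 * d + 4 + 1) + 2) := by
      rw [hr2, hr1, hr]; push_cast; ring
    rw [h1]
    have h3 : (K2 : ℝ) * (K2 * (2 * d + 4 + 1) + 2) ≤ K2 ^ 2 * (4 * d) := by
      have h5 : (K2 : ℝ) * 2 ≤ K2 * K2 := by gcongr
      have h6 : (K2 : ℝ) ^ 2 * (2 * d + 6) ≤ K2 ^ 2 * (4 * d) := by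
        have : (2 * d + 6 : ℝ) ≤ 4 * d := by linarith
        gcongr
      have h7 : (K2 : ℝ) * (K2 * (2 * d + 4 + 1) + 2) = K2 ^ 2 * (2 * d + 5) + K2 * 2 := by ring
      have h8 : (K2 : ℝ) ^ 2 * (2 * d + 6) = K2 ^ 2 * (2 * d + 5) + K2 * K2 := by ring
      linarith
    have h4 : (K2 : ℝ) ^ 2 * (4 * d) ≤ K2 ^ 2 * (4 * (δ * n)) := by gcongr
    linarith
  refine ⟨r, r1, r2, L, ?_⟩
  refine ⟨by omega, by omega, by omega, hd19, hr, hr1, hr2, hL, ?_, ?_, ?_, ?_⟩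
  · rw [lt_div_iff₀ (by positivity)] at hδ4
    have h1 : δ * (8 * (K2 : ℝ) ^ 2) * n < κ0 * n := by gcongr
    linarith
  · rw [lt_div_iff₀ (by positivity)] at hδ5
    have h1 : δ * (4 * (K2 : ℝ) ^ 2 + 2) * n ≤ κ * n := by gcongr
    have h2 : (d : ℝ) + 4 ≤ 2 * (δ * n) := by linarith
    linarith
  · rw [lt_div_iff₀ (by positivity)] at hδ6
    have h1 : δ * (2 * ((K : ℝ) + 1)) * n ≤ κ0 * n := by gcongr
    have h3 : (L : ℝ) = K * (d + 4) + (d + 1) := by rw [hL]; push_cast; ring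
    have h4 : (0 : ℝ) ≤ K := by positivity
    have h5 : (L : ℝ) ≤ 2 * (K + 1) * d := by
      rw [h3]
      have : (K : ℝ) * (d + 4) ≤ K * (2 * d) := by
        have : (d + 4 : ℝ) ≤ 2 * d := by linarith
        gcongr
      linarith
    have h6 : 2 * ((K : ℝ) + 1) * d ≤ 2 * (K + 1) * (δ * n) := by gcongr
    linarith
  · rw [hL]
    push_cast
    have h1 : (d : ℤ) + 4 ≤ 11 * R := by omega
    have h2 : (K : ℤ) * (d + 4) ≤ K * (11 * R) := by gcongr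
    have h3 : (11 * ((K : ℤ) + 1)) * R = K * (11 * R) + 11 * R := by ring
    rw [h3]
    omega

section scale

variable {l : ℕ} [NeZero l] {p : ZMod l → ℤ × ℤ} {S₀ : Finset (ℤ × ℤ)} {Q : Marks} {n d : ℕ}
  {R r r1 r2 L : ℤ} {K K2 : ℕ} {κ κ0 : ℝ}

/-- The supports of the bad events. -/
theorem supp_off (H : Hyp p (enl S₀ n) Q n d κ0 0 r r1 r2) (N : Nums n d R r r1 r2 L K K2 κ κ0)
    (h12 : r + 1 ≤ r1) (h23 : r1 + 2 ≤ r2) {v : Pt}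
    (hv : v ∈ ((univ : Finset (Fin l × Fin (Q.m + 1))).biUnion fun x =>
      annS (hsite p Q n x) (r + 1) r1) ∪ ((univ : Finset (Fin l × Fin (Q.m + 1))).biUnion fun x =>
      annS (hsite p Q n x) (r1 + 2) r2)) :
    ∃ x, nm (v - hsite p Q n x) ≤ r2 ∧ r ≤ nm (v - hsite p Q n x) := by
  rcases mem_union.1 hv with h | h
  · obtain ⟨x, -, hx⟩ := mem_biUnion.1 h
    rw [mem_annS] at hx
    exact ⟨x, by omega, by omega⟩
  · obtain ⟨x, -, hx⟩ := mem_biUnion.1 h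
    rw [mem_annS] at hx
    exact ⟨x, hx.1, by omega⟩

theorem supp_base (H : Hyp p (enl S₀ n) Q n d κ0 0 r r1 r2) (N : Nums n d R r r1 r2 L K K2 κ κ0)
    (h12 : r + 1 ≤ r1) (h23 : r1 + 2 ≤ r2) {κ1 : ℝ} (hκ1 : κ1 ≤ κ0 / 4) (hκ0 : 0 < κ0)
    (hn : 1 ≤ κ0 * n) :
    Disjoint (((univ : Finset (Fin l × Fin (Q.m + 1))).biUnion fun x =>
      annS (hsite p Q n x) (r + 1) r1) ∪ ((univ : Finset (Fin l × Fin (Q.m + 1))).biUnion fun x =>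
      annS (hsite p Q n x) (r1 + 2) r2)) (bxx (bsite p Q n) ⌊κ1 * n⌋) := by
  rw [Finset.disjoint_left]
  intro v hv hv'
  obtain ⟨x, hx, -⟩ := supp_off H N h12 h23 hv
  rw [mem_bxx] at hv'
  have h1 := H.geo.farb x
  have h2 := nm_tri (hsite p Q n x) v (bsite p Q n)
  rw [nm_comm (hsite p Q n x) v] at h2
  have h3 : (nm (v - bsite p Q n) : ℝ) ≤ κ1 * n := by
    refine le_trans ?_ (Int.floor_le _)
    exact_mod_cast hv'
  have h4 : (nm (v - hsite p Q n x) : ℝ) ≤ r2 := by exact_mod_cast hx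
  have h5 : (nm (hsite p Q n x - bsite p Q n) : ℝ) ≤
      nm (v - hsite p Q n x) + nm (v - bsite p Q n) := by exact_mod_cast h2
  have h6 : κ1 * n ≤ κ0 / 4 * n := by gcongr
  have h7 := N.sep
  linarith

theorem supp_tip (H : Hyp p (enl S₀ n) Q n d κ0 0 r r1 r2) (N : Nums n d R r r1 r2 L K K2 κ κ0)
    (h12 : r + 1 ≤ r1) (h23 : r1 + 2 ≤ r2) (y : Fin l × Fin (Q.m + 1)) :
    Disjoint (((univ : Finset (Fin l × Fin (Q.m + 1))).biUnion fun x =>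
      annS (hsite p Q n x) (r + 1) r1) ∪ ((univ : Finset (Fin l × Fin (Q.m + 1))).biUnion fun x =>
      annS (hsite p Q n x) (r1 + 2) r2)) (bxx (tsite p Q n d y) R) := by
  rw [Finset.disjoint_left]
  intro v hv hv'
  obtain ⟨x, hx, hx'⟩ := supp_off H N h12 h23 hv
  rw [mem_bxx] at hv'
  have h1 := (H.geo.tip y).1
  have h2 := nm_tri v (tsite p Q n d y) (hsite p Q n y)
  have hr := N.hr
  have hRd := N.Rd
  have h3 : nm (v - hsite p Q n y) ≤ r2 := by omega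
  have h4 := H.uniq hx h3
  subst h4
  omega

/-- The assembly at one scale. -/
theorem at_scale {B κ1 M C α θ c0 c1 Vn ε : ℝ} {R0 : ℤ} {cc : Bool}
    (N : Nums n d R r r1 r2 L K K2 κ κ0) (hK : 2 ≤ K) (hK2 : 2 ≤ K2) (hκ : 0 < κ) (hκ0 : 0 < κ0)
    (hn : 1 ≤ κ0 * n) (geo : GeoAt p (enl S₀ n) Q n d κ0)
    (tab : ∀ c, FlowIn (enl S₀ n) κ B n c → TabAt p Q n d κ0 c) (hB : 0 ≤ B)
    (hκ1 : κ1 ≤ κ0 / 4) (hM : 0 < M) (hc0 : 0 < c0) (hc1 : 0 < c1) (hθ : 0 < θ) {Φ T : ℝ}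
    (hΦ0 : 0 ≤ Φ) (hT : T = ∏ x : Fin l × Fin (Q.m + 1),
      μ.real (TipD (pdir p x.1) (tsite p Q n d x) R))
    (mb : ∀ c : Ed → ℝ, FlowIn (enl S₀ n) κ B n c →
      ∀ (F : Finset Pt) (G : Set Mk), Dep F G → Disjoint F (bxx (bsite p Q n) ⌊κ1 * n⌋) →
      (∫ ω in G, |(PF p Q n c).X ω| ∂μ ≤ M * (μ.real G) ^ (1 / 4 : ℝ) * Φ) ∧
      ((∀ x, Disjoint F (bxx (tsite p Q n d x) R)) →
        ∫ ω in G, |(PW p Q n d c).X ω| ∂μ ≤ M * (μ.real G) ^ (1 / 4 : ℝ) * T * Φ))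
    (hV : ∀ c : Ed → ℝ, FlowIn (enl S₀ n) κ B n c →
      ∫ ω, (PF p Q n c).X ω ∂μ = VD (enl S₀ n) (bsite p Q n) (dv c) * Vn)
    (hVn : c0 * Φ ≤ Vn) (hcc : cc = col (bsite p Q n))
    (hglue : ∀ (r : Fin 4) (z : Pt) (F : Finset Pt) (G : Set Mk), Dep F G → IncC (col z) G →
      c1 * (μ.real (TipD r z R) * μ.real G) ≤ μ.real (TipD r z L ∩ G))
    (hncc : ∀ (c : Bool) (x : Pt) (r R : ℤ), 1 ≤ r → r ≤ R →
      μ.real (NCc c x r R)ᶜ ≤ C * ((r : ℝ) / R) ^ α)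
    (hKC : C * ((1 : ℝ) / K) ^ α ≤ 1 / 4) (hK2C : C * ((1 : ℝ) / K2) ^ α ≤ 1 / 4)
    (hK2N : Fintype.card (Fin l × Fin (Q.m + 1)) * (C * ((1 : ℝ) / K2) ^ α) ≤ θ ^ 4 / 2)
    (hθ1 : θ * (M * (1 / ((c1 / 2) ^ Fintype.card (Fin l × Fin (Q.m + 1)) * c0) + 1 / c0)) ≤ 1 / 2)
    (hθ2 : 2 * (θ * (M * (1 / ((c1 / 2) ^ Fintype.card (Fin l × Fin (Q.m + 1)) * c0) + 1 / c0))) *
      (1 + M / c0) ≤ ε) (c : Ed → ℝ) (hc : FlowIn (enl S₀ n) κ B n c) :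
    1 / 2 * ((c1 / 2) ^ Fintype.card (Fin l × Fin (Q.m + 1)) * T * (c0 * Φ)) ≤
      ∫ ω, (PW p Q n d 0).X ω ∂μ ∧
    |∫ ω, (PW p Q n d c).X ω ∂μ - (∫ ω, (PW p Q n d 0).X ω ∂μ) *
      VD (enl S₀ n) (bsite p Q n) (dv c)| ≤ ε * ∫ ω, (PW p Q n d 0).X ω ∂μ := by
  have := fair_mu.prob
  have hK2z : (2 : ℤ) ≤ K2 := by exact_mod_cast hK2
  have hKz : (2 : ℤ) ≤ K := by exact_mod_cast hK
  have hr := N.hr
  have hd1 := N.d1
  have hrr1 : r + 1 ≤ r1 := by rw [N.hr1]; nlinarith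
  have hr12 : r1 + 2 ≤ r2 := by rw [N.hr2]; nlinarith
  have hflow0 : FlowIn (enl S₀ n) κ B n 0 := flowIn_zero _ _ hB n
  have hyp : ∀ c, FlowIn (enl S₀ n) κ B n c → Hyp p (enl S₀ n) Q n d κ0 c r r1 r2 := fun c hc =>
    hyp_of hκ.le geo (tab c hc) hc hn (by omega) (by omega) (by omega) N.sep N.hz
  have hRad : Rad r r1 r2 := ⟨hrr1, hr12⟩
  have e1 : (((r + 1 : ℤ) : ℝ) / (r1 : ℝ)) = 1 / K2 := by
    rw [N.hr1]; exact ratio_eq (by omega) hK2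
  have e2 : (((r1 + 2 : ℤ) : ℝ) / (r2 : ℝ)) = 1 / K2 := by
    rw [N.hr2]; exact ratio_eq (by omega) hK2
  have hp2 : ∀ x : Pt, μ.real (NCc cc x (r + 1) r1)ᶜ ≤ 1 / 4 := by
    intro x
    have h1 := hncc cc x (r + 1) r1 (by omega) hrr1
    rw [e1] at h1
    exact h1.trans hK2C
  have e3 : (K : ℤ) * (d + 4) = K * (d + 3 + 1) := by ring
  have hp1 : ∀ x : Pt, μ.real (NCc cc x ((d : ℤ) + 3 + 1) (K * (d + 4)))ᶜ ≤ 1 / 4 := by
    intro x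
    have h1 := hncc cc x ((d : ℤ) + 3 + 1) (K * (d + 3 + 1)) (by omega) (by nlinarith)
    rw [ratio_eq (by omega) hK] at h1
    rw [e3]
    exact h1.trans hKC
  have hAI := AI_ge (hyp 0 hflow0) hcc (R := R) (L := L) (r' := d + 3) (R' := K * (d + 4)) hc1.le
    hglue le_rfl (by nlinarith) (by rw [N.hL]) N.hLκ hp1 hp2
  rw [← hT] at hAI
  have hq2 : μ.real (NI p Q n cc (r1 + 2) r2)ᶜ ≤ θ ^ 4 / 2 := by
    have h1 := NI_compl_le (p := p) (Q := Q) (n := n) hncc cc (a := r1 + 2) (b := r2) (by omega) hr12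
    rw [e2] at h1
    exact h1.trans hK2N
  have hq1 : μ.real (NI p Q n cc (r + 1) r1)ᶜ ≤ θ ^ 4 / 2 := by
    have h1 := NI_compl_le (p := p) (Q := Q) (n := n) hncc cc (a := r + 1) (b := r1) (by omega) hrr1
    rw [e1] at h1
    exact h1.trans hK2N
  have hθ4 : ∀ x : ℝ, 0 ≤ x → x ≤ θ ^ 4 → x ^ (1 / 4 : ℝ) ≤ θ := by
    intro x hx hx'
    calc x ^ (1 / 4 : ℝ) ≤ (θ ^ 4) ^ (1 / 4 : ℝ) := Real.rpow_le_rpow hx hx' (by norm_num)
      _ = θ := by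
        rw [← Real.rpow_natCast θ 4, ← Real.rpow_mul hθ.le]
        norm_num
  have hθp : 0 < θ ^ 4 := by positivity
  have hG2θ : μ.real (NI p Q n cc (r1 + 2) r2)ᶜ ^ (1 / 4 : ℝ) ≤ θ :=
    hθ4 _ measureReal_nonneg (by linarith)
  have hG1θ : μ.real (NI p Q n cc (r + 1) r1 ∩ NI p Q n cc (r1 + 2) r2)ᶜ ^ (1 / 4 : ℝ) ≤ θ := by
    refine hθ4 _ measureReal_nonneg ?_
    rw [Set.compl_inter]
    have h1 := measureReal_union_le (μ := μ) (NI p Q n cc (r + 1) r1)ᶜ (NI p Q n cc (r1 + 2) r2)ᶜ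
    linarith
  have hdb := supp_base (hyp 0 hflow0) N hrr1 hr12 hκ1 hκ0 hn
  have hdt := supp_tip (hyp 0 hflow0) N hrr1 hr12
  have hdep2 := (dep_NI (p := p) (Q := Q) (n := n) cc (r1 + 2) r2).compl
  have hdep1 := ((dep_NI (p := p) (Q := Q) (n := n) cc (r + 1) r1).inter'
    (dep_NI (p := p) (Q := Q) (n := n) cc (r1 + 2) r2)).compl
  have hT0 : 0 ≤ T := by rw [hT]; exact prod_nonneg fun _ _ => measureReal_nonneg
  have herr : ∀ c, FlowIn (enl S₀ n) κ B n c →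
      |∫ ω, (PW p Q n d c).X ω ∂μ - μ.real (AI p Q n d cc r r1) * ∫ ω, (PF p Q n c).X ω ∂μ| ≤
        M * θ * T * Φ + μ.real (AI p Q n d cc r r1) * (M * θ * Φ) := by
    intro c hc
    have h1 := (hyp c hc).dec hRad cc (H199.int_X (H199.fc_of_flowIn hκ.le hc))
      (H199.int_X (H199.fc_of_flowIn hκ.le hc))
    have h2 := (mb c hc _ _ hdep1 hdb).2 hdt
    have h3 := (mb c hc _ _ hdep2 (hdb.mono_left subset_union_right)).1
    refine h1.trans (add_le_add (h2.trans ?_) ?_)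
    · gcongr
    · refine mul_le_mul_of_nonneg_left (h3.trans ?_) measureReal_nonneg
      gcongr
  have hFI' : ∀ c, FlowIn (enl S₀ n) κ B n c → |∫ ω, (PF p Q n c).X ω ∂μ| ≤ M * Φ := by
    intro c hc
    have h1 := (mb c hc ∅ Set.univ (fun _ _ _ _ => Set.mem_univ _) (Finset.disjoint_empty_left _)).1
    rw [setIntegral_univ, probReal_univ, Real.one_rpow, mul_one] at h1
    exact abs_integral_le_integral_abs.trans h1
  have hE0 := herr 0 hflow0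
  rw [hV 0 hflow0, VD_zero, one_mul] at hE0
  exact num hM hc0 (by positivity) hθ.le measureReal_nonneg hT0 hΦ0 hAI hVn (herr c hc) (hV c hc)
    (hFI' c hc) hE0 hθ1 hθ2

end scale

end Vale.Agent.P167.H662
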