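import Vale.Agent.P167.H662.Start2

/-!
# P167, block START: final assembly
-/

namespace Vale.Agent.P167.H662

open MeasureTheory Finset Filter Vale.Agent.P145.FB Vale.Agent.P153 Vale.Agent.P153.Topo
  Vale.Agent.P167.H871 Vale.Agent.P167.H632
open Vale.Agent.P167.H166 (nx_step bxx mem_bxx)
open Vale.Agent.P167.H825
open Vale.Agent.P167.BR (VD)
open Vale.Agent.P167.E6 (IsPolygon Encloses dir)

/-- **Assembly of START.** -/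
theorem start_of (hS : SYM3) (hM : MB) (hVO : VOUT) (hT : TAB) (hG : GEO) :
    STARTR (fun n => μ.real (TipOk (0, 0) n)) (fun n => μ.real (FlatD 2 (0, 0) (n - 1))) := by
  classical
  have := fair_mu.prob
  intro l _ p S₀ hp hE Q hQ κ B₀ hκ ε hε
  obtain ⟨B, hB⟩ : ∃ B, B = max B₀ 0 := ⟨_, rfl⟩
  obtain ⟨κa, hκa, δa, hδa, tab⟩ := hT l p S₀ hp hE Q hQ κ B hκ
  obtain ⟨κb, hκb, δb, hδb, geo⟩ := hG l p S₀ hp hE Q hQ
  obtain ⟨κ0, hκ0p, hκ0a, hκ0b, hκ01⟩ : ∃ κ0 : ℝ, 0 < κ0 ∧ κ0 ≤ κa ∧ κ0 ≤ κb ∧ κ0 ≤ 1 :=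
    ⟨min (min κa κb) 1, by positivity, (min_le_left _ _).trans (min_le_left _ _),
      (min_le_left _ _).trans (min_le_right _ _), min_le_right _ _⟩
  obtain ⟨κ1, hκ1, hκ12, δc, hδc, M, hMp, mb⟩ :=
    hM l p S₀ hp hE Q hQ κ B (κ0 / 4) hκ (by positivity)
  obtain ⟨V, hV1, hV2⟩ := hVO l p S₀ hp hE Q hQ
  obtain ⟨c0, hc0, hV3⟩ := hV2 κ1 hκ1
  obtain ⟨C, α, hC, hα, hncc⟩ := ncc_compl_le
  obtain ⟨K, hK, hKC⟩ := exists_ratio (C := C) hα (show (0 : ℝ) < 1 / 4 by norm_num)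
  obtain ⟨c1, hc1, R0, hglue⟩ := hS.glue (11 * (K + 1))
  obtain ⟨N, hN⟩ : ∃ N, N = Fintype.card (Fin l × Fin (Q.m + 1)) := ⟨_, rfl⟩
  obtain ⟨M1, hM1⟩ : ∃ M1 : ℝ, M1 = M * (1 / ((c1 / 2) ^ N * c0) + 1 / c0) := ⟨_, rfl⟩
  have hM1p : 0 < M1 := by rw [hM1]; positivity
  obtain ⟨θ, hθp, hθM, hθε⟩ : ∃ θ : ℝ, 0 < θ ∧ θ * M1 ≤ 1 / 2 ∧
      2 * (θ * M1) * (1 + M / c0) ≤ ε := by
    refine ⟨min (1 / (2 * M1)) (ε / (2 * M1 * (1 + M / c0))), by positivity, ?_, ?_⟩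
    · have h1 : min (1 / (2 * M1)) (ε / (2 * M1 * (1 + M / c0))) ≤ 1 / (2 * M1) := min_le_left _ _
      rw [le_div_iff₀ (by positivity)] at h1
      linarith
    · have h1 : min (1 / (2 * M1)) (ε / (2 * M1 * (1 + M / c0))) ≤
        ε / (2 * M1 * (1 + M / c0)) := min_le_right _ _
      rw [le_div_iff₀ (by positivity)] at h1
      linarith
  obtain ⟨K2, hK2, hK2C⟩ := exists_ratio (C := C) hα
    (show (0 : ℝ) < min (1 / 4) (θ ^ 4 / (2 * N + 1)) by positivity)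
  have hK2N : (N : ℝ) * (C * ((1 : ℝ) / K2) ^ α) ≤ θ ^ 4 / 2 := by
    have h1 := hK2C.trans (min_le_right _ _)
    rw [le_div_iff₀ (by positivity)] at h1
    have h2 : (0 : ℝ) ≤ C * ((1 : ℝ) / K2) ^ α := by positivity
    linarith
  have hK2C' := hK2C.trans (min_le_left _ _)
  obtain ⟨δ₀, hδ₀p, hδ₀⟩ : ∃ δ₀ : ℝ, 0 < δ₀ ∧ ∀ δ < δ₀, ((δ < δa ∧ δ < δb) ∧ δ < δc) ∧
      (δ < κ0 / (8 * K2 ^ 2) ∧ δ < κ / (4 * K2 ^ 2 + 2)) ∧ δ < κ0 / (2 * (K + 1)) := by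
    have hK2r : (2 : ℝ) ≤ K2 := by exact_mod_cast hK2
    refine ⟨min (min (min δa δb) δc) (min (min (κ0 / (8 * K2 ^ 2)) (κ / (4 * K2 ^ 2 + 2)))
      (κ0 / (2 * (K + 1)))), by positivity, fun δ hδ => ?_⟩
    simpa only [lt_min_iff] using hδ
  refine ⟨δ₀, hδ₀p, fun δ hδ hδ' => ?_⟩
  obtain ⟨⟨⟨hδ1, hδ2⟩, hδ3⟩, ⟨hδ4, hδ5⟩, hδ6⟩ := hδ₀ δ hδ'
  refine ⟨1 / 2 * ((c1 / 2) ^ N * c0), by positivity, ?_⟩
  have hlarge : ∀ᶠ n : ℕ in atTop, max (max (4 * (R0 + 2 : ℝ)) 20 / δ) (1 / κ0) ≤ (n : ℝ) :=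
    tendsto_natCast_atTop_atTop.eventually (eventually_ge_atTop _)
  filter_upwards [tab δ hδ hδ1, geo δ hδ hδ2, mb δ hδ hδ3, hV1 κ B hκ, hV3, hlarge,
    eventually_ge_atTop 8] with n htab hgeo hmb hv1 hv3 hln hn8
  have hln1 : max (4 * (R0 + 2 : ℝ)) 20 ≤ δ * n := by
    have h1 := (le_max_left _ _).trans hln
    rw [div_le_iff₀ hδ] at h1
    linarith
  have hln2 : 1 ≤ κ0 * n := by
    have h1 := (le_max_right _ _).trans hln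
    rw [div_le_iff₀ hκ0p] at h1
    linarith
  have hδR : 4 * (R0 + 2 : ℝ) ≤ δ * n := (le_max_left _ _).trans hln1
  have hδ20 : 20 ≤ δ * n := (le_max_right _ _).trans hln1
  obtain ⟨d, hd⟩ : ∃ d, d = ⌊δ * n⌋₊ := ⟨_, rfl⟩
  obtain ⟨R, hR⟩ : ∃ R : ℤ, R = ⌊δ * n / 4⌋ := ⟨_, rfl⟩
  obtain ⟨r, r1, r2, L, Nm⟩ := nums (κ := κ) (κ0 := κ0) hK hK2 hδ hδ4 hδ5 hδ6 hδ20 hd hR
  have hR1 : (R : ℝ) ≤ δ * n / 4 := by rw [hR]; exact Int.floor_le _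
  have hR0 : R0 ≤ R := by
    have hR2 : δ * n / 4 < R + 1 := by rw [hR]; exact Int.lt_floor_add_one _
    have : (R0 : ℝ) < R := by linarith
    exact_mod_cast this.le
  rw [← hd] at htab hgeo hmb ⊢
  rw [← hR] at hmb
  obtain ⟨Φ, hΦ⟩ : ∃ Φ, Φ = μ.real (FlatD (pdir p 0) (bsite p Q n) ⌊κ1 * n⌋) := ⟨_, rfl⟩
  obtain ⟨T, hTT⟩ : ∃ T, T = ∏ x : Fin l × Fin (Q.m + 1),
      μ.real (TipD (pdir p x.1) (tsite p Q n d x) R) := ⟨_, rfl⟩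
  rw [← hΦ] at hv3
  rw [← hΦ, ← hTT] at hmb
  have hΦ0 : 0 ≤ Φ := by rw [hΦ]; exact measureReal_nonneg
  rw [hM1, hN] at hθM hθε
  rw [hN] at hK2N
  have hflow : ∀ c, FlowIn (enl S₀ n) κ B₀ n c → FlowIn (enl S₀ n) κ B n c := fun c hc =>
    FlowIn.mono hc (by rw [hB]; exact le_max_left _ _)
  have hB0 : 0 ≤ B := by rw [hB]; exact le_max_right _ _
  have hfin := at_scale (R0 := R0) Nm hK hK2 hκ hκ0p hln2 (hgeo.mono hκ0b)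
    (fun c hc => TabAt.mono (htab c hc) hκ0a) hB0 hκ12 hMp hc0 hc1 hθp hΦ0 hTT hmb hv1 hv3
    (cc := col (bsite p Q n)) rfl (fun r z F G => hglue r z R L hR0 Nm.hLR F G) hncc hKC hK2C'
    hK2N hθM hθε
  rw [← hN] at hfin
  refine ⟨?_, fun c hc => (hfin c (hflow c hc)).2⟩
  refine le_trans ?_ (hfin 0 (flowIn_zero _ _ hB0 n)).1
  have hn8' : (8 : ℝ) ≤ n := by exact_mod_cast hn8
  have hzt : μ.real (TipOk (0, 0) n) ^ (l * (Q.m + 1)) ≤ T := by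
    rw [hTT]
    have hcard : l * (Q.m + 1) = (univ : Finset (Fin l × Fin (Q.m + 1))).card := by
      rw [Finset.card_univ, Fintype.card_prod, Fintype.card_fin, Fintype.card_fin]
    rw [hcard, ← prod_const]
    refine prod_le_prod (fun _ _ => measureReal_nonneg) fun x _ => ?_
    refine le_trans (measureReal_mono (TipOk_anti ?_)) (hS.tip_ge (pdir p x.1) _ R)
    have h1 : (R : ℝ) + 1 ≤ n := by
      have h2 : δ ≤ 1 := by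
        have h3 : κ0 / (2 * ((K : ℝ) + 1)) ≤ 1 := by
          rw [div_le_one (by positivity)]
          have : (0 : ℝ) ≤ K := by positivity
          linarith
        linarith
      have h3 : δ * n ≤ 1 * n := by gcongr
      linarith
    exact_mod_cast h1
  have hzf : μ.real (FlatD 2 (0, 0) ((n : ℤ) - 1)) ≤ Φ := by
    rw [hΦ]
    refine le_trans (measureReal_mono (FlatD_anti ?_)) (hS.flat_ge (pdir p 0) _ _)
    have h1 : (⌊κ1 * n⌋ : ℝ) + 1 ≤ n - 1 := by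
      have h2 : (⌊κ1 * n⌋ : ℝ) ≤ κ1 * n := Int.floor_le _
      have h3 : κ1 * n ≤ 1 / 4 * n := by
        have : κ1 ≤ 1 / 4 := by linarith
        gcongr
      linarith
    exact_mod_cast h1
  have h5 : (0 : ℝ) ≤ μ.real (FlatD 2 (0, 0) ((n : ℤ) - 1)) := measureReal_nonneg
  have h6 : (0 : ℝ) ≤ T := by rw [hTT]; exact prod_nonneg fun _ _ => measureReal_nonneg
  calc 1 / 2 * ((c1 / 2) ^ N * c0) * (μ.real (TipOk (0, 0) n) ^ (l * (Q.m + 1)) *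
        μ.real (FlatD 2 (0, 0) ((n : ℤ) - 1)))
      ≤ 1 / 2 * ((c1 / 2) ^ N * c0) * (T * Φ) := by gcongr
    _ = 1 / 2 * ((c1 / 2) ^ N * T * (c0 * Φ)) := by ring

end Vale.Agent.P167.H662
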