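import Vale.Agent.P167.H662.Start3
import Vale.Agent.P167.H436.SymS
import Vale.Agent.P167.XDL.Geo3
import Vale.Agent.P167.H945.HosT
import Vale.Agent.P167.H135.FlatArm

/-!
# P167: START and HOS with the same normalisation
-/

namespace Vale.Agent.P167.H662

open MeasureTheory Finset Filter
open Vale.Agent.P167.H825
open Vale.Agent.P167.H945 (pF pT Cmp cb FLL)

/-- The normalisation of the tips. -/
noncomputable def ztN (n : ℕ) : ℝ := μ.real (TipOk (0, 0) n)

/-- The normalisation of the flat points. -/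
noncomputable def zfN (n : ℕ) : ℝ := pF n

theorem cmp_flat : Cmp pF zfN := by
  refine Cmp.of_int (q := pF) (fun _ => measureReal_nonneg) fun Λ => ?_
  obtain ⟨C, hC, h⟩ := H135.flat_ge Λ
  exact ⟨C, hC, 1, fun R L hR hL hRL => h R L hR hL (by omega)⟩

/-- **HOS**, unconditional. -/
theorem hosN : HOS ztN zfN := H945.hos_tip cmp_flat

theorem zfN_le (n : ℕ) : zfN n ≤ μ.real (FlatD 2 (0, 0) ((n : ℤ) - 1)) := by
  have := H871.fair_mu.prob
  refine measureReal_mono fun ω hω hF => hω ?_
  refine (H436.OvD_two (cb n) ω).1 (hF.mono fun v hv => ?_)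
  have h1 : nm (v - (0, 0)) ≤ (n : ℤ) - 1 := hv
  rw [H632.nm_le] at h1
  simp only [Prod.fst_sub, Prod.snd_sub, sub_zero] at h1
  exact ⟨by omega, by omega, by omega, by omega⟩

/-- **START** from the remaining inputs. -/
theorem startN (hM : MB) (hVO : VOUT) (hT : TAB) : STARTR ztN zfN :=
  (start_of H436.sym.three hM hVO hT Enl.geo).mono (fun _ => measureReal_nonneg) zfN_le

end Vale.Agent.P167.H662
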