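import Vale.Agent.P167.Top.Plane
import Vale.Agent.P167.H166.Clu

/-!
# P167, block START: the corner graph, the tip of a slit

Corner `(v, s)`: `s` is a corner site of the square `v`. In the corner graph cut at the medial edges
of `K` one may turn around a site across a medial edge which is not in `K`, and cross an open square
between its two even corners. `Sl z` is the slit which starts at the site `z` and goes to the right.
-/

namespace Vale.Agent.P167.H662

open Finset Vale.Agent.P145.FB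
open Vale.Agent.P167.H166 (nx_step)

/-- Steps of the corner graph; squares of `B` may be crossed, the edges of `K` are cut. -/
inductive CStep (K : Set Ed) (B : Set (ℤ × ℤ)) (ω : Cfg) :
    (ℤ × ℤ) × (ℤ × ℤ) → (ℤ × ℤ) × (ℤ × ℤ) → Prop
  | turn {e : Ed} {s : ℤ × ℤ} (he : e ∉ K) (hs : s = ls e ∨ s = rs e) :
      CStep K B ω (tlv e, s) (hdv e, s)
  | turn' {e : Ed} {s : ℤ × ℤ} (he : e ∉ K) (hs : s = ls e ∨ s = rs e) :
      CStep K B ω (hdv e, s) (tlv e, s)
  | cross {v s s' : ℤ × ℤ} (hv : v ∈ B) (ho : ω v = true) (he : Even (s.1 + s.2))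
      (h : PStep {v} s s') : CStep K B ω (v, s) (v, s')

/-- Connection in the corner graph. -/
def CConn (K : Set Ed) (B : Set (ℤ × ℤ)) (ω : Cfg) (c c' : (ℤ × ℤ) × (ℤ × ℤ)) : Prop :=
  Relation.ReflTransGen (CStep K B ω) c c'

theorem CStep.mono {K K' : Set Ed} {B B' : Set (ℤ × ℤ)} {ω ω' : Cfg} (hK : K' ⊆ K) (hB : B ⊆ B')
    (hω : ∀ v ∈ B, ω v = true → ω' v = true) {c c' : (ℤ × ℤ) × (ℤ × ℤ)}
    (h : CStep K B ω c c') : CStep K' B' ω' c c' := by
  cases h with
  | turn he hs => exact .turn (fun h => he (hK h)) hs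
  | turn' he hs => exact .turn' (fun h => he (hK h)) hs
  | cross hv ho he h => exact .cross (hB hv) (hω _ hv ho) he h

theorem CConn.mono {K K' : Set Ed} {B B' : Set (ℤ × ℤ)} {ω ω' : Cfg} (hK : K' ⊆ K) (hB : B ⊆ B')
    (hω : ∀ v ∈ B, ω v = true → ω' v = true) {c c' : (ℤ × ℤ) × (ℤ × ℤ)}
    (h : CConn K B ω c c') : CConn K' B' ω' c c' :=
  Relation.ReflTransGen.mono (fun _ _ h' => CStep.mono hK hB hω h') _ _ h

theorem even_ls (e : Ed) : Even ((ls e).1 + (ls e).2) := by
  rw [Int.even_iff]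
  exact (H166.corner e).2.2.2.2.1

/-- The slit which starts at the site `z` and goes to the right. -/
def Sl (z : ℤ × ℤ) : Set Ed := {e | ∃ x, z.1 ≤ x ∧ e = Sum.inr (x, z.2 - 1)}

theorem inl_notMem_Sl {z v : ℤ × ℤ} : (Sum.inl v : Ed) ∉ Sl z := by
  rintro ⟨x, _, h⟩
  cases h

theorem inr_mem_Sl {z v : ℤ × ℤ} : (Sum.inr v : Ed) ∈ Sl z ↔ z.1 ≤ v.1 ∧ v.2 = z.2 - 1 := by
  constructor
  · rintro ⟨x, hx, h⟩
    rw [Sum.inr.injEq] at h
    rw [h]
    exact ⟨hx, rfl⟩
  · rintro ⟨h1, h2⟩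
    exact ⟨v.1, h1, by rw [← h2]⟩

/-- The segment `x_0, …, x_n` of the orbit of `e` joins two edges of the slit, does not use other
edges of the slit, and its squares are in `B`. -/
structure Seg (z : ℤ × ℤ) (B : Set (ℤ × ℤ)) (ω : Cfg) (e : Ed) (n : ℕ) : Prop where
  pos : 1 ≤ n
  left : e ∈ Sl z
  right : (nx ω)^[n] e ∈ Sl z
  mid : ∀ i, 0 < i → i < n → (nx ω)^[i] e ∉ Sl z
  box : ∀ i < n, hdv ((nx ω)^[i] e) ∈ B

/-- There is a strand in `B` from one side of the slit to the other one. -/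
def FF (z : ℤ × ℤ) (B : Set (ℤ × ℤ)) (ω : Cfg) : Prop :=
  ∃ e n, Seg z B ω e n ∧ ¬ (z.2 ≤ (hdv e).2 ↔ z.2 ≤ (tlv ((nx ω)^[n] e)).2)

/-! ### No strand around the tip: the tip is joined to the outside -/

theorem conn_along {K : Set Ed} {B : Set (ℤ × ℤ)} {ω : Cfg} {e : Ed} {n : ℕ}
    (hB : ∀ i < n, hdv ((nx ω)^[i] e) ∈ B) (hK : ∀ i, 0 < i → i < n → (nx ω)^[i] e ∉ K)
    (hn : 1 ≤ n) :
    CConn K B ω (hdv e, ls e) (tlv ((nx ω)^[n] e), ls ((nx ω)^[n] e)) := by
  have key : ∀ k, 1 ≤ k → k ≤ n →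
      CConn K B ω (hdv e, ls e) (tlv ((nx ω)^[k] e), ls ((nx ω)^[k] e)) := by
    intro k hk
    induction k, hk using Nat.le_induction with
    | base =>
      intro h1
      rw [Function.iterate_one, tlv_nx]
      rcases hv : ω (hdv e) with _ | _
      · rw [ls_nx hv]; exact Relation.ReflTransGen.refl
      · refine Relation.ReflTransGen.single (.cross (hB 0 (by omega)) hv ?_ ((nx_step ω e).1 hv).1)
        exact even_ls e
    | succ k hk ih =>
      intro h1
      have h2 := ih (by omega)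
      rw [Function.iterate_succ_apply', tlv_nx]
      refine h2.tail (.turn (hK k (by omega) (by omega)) (Or.inl rfl)) |>.trans ?_
      rcases hv : ω (hdv ((nx ω)^[k] e)) with _ | _
      · rw [ls_nx hv]
      · refine Relation.ReflTransGen.single (.cross (hB k (by omega)) hv ?_ ((nx_step ω _).1 hv).1)
        exact even_ls _
  exact key n hn le_rfl

theorem finite_hdv {B : Set (ℤ × ℤ)} (hB : B.Finite) : {e : Ed | hdv e ∈ B}.Finite := by
  have : {e : Ed | hdv e ∈ B} ⊆ ⋃ v ∈ B, ({Sum.inl v, Sum.inl (v.1 - 1, v.2), Sum.inr v,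
      Sum.inr (v.1, v.2 - 1)} : Set Ed) := by
    intro e he
    simp only [Set.mem_iUnion]
    refine ⟨_, he, ?_⟩
    rcases e with ⟨x, y⟩ | ⟨x, y⟩ <;> by_cases hp : Even (x + y) <;> simp [hdv, hp]
  exact (hB.biUnion fun v _ => Set.toFinite _).subset this

/-- First returns are injective. -/
theorem Seg.eq_of_eq {z : ℤ × ℤ} {B B' : Set (ℤ × ℤ)} {ω : Cfg} {e e' : Ed} {n n' : ℕ}
    (h : Seg z B ω e n) (h' : Seg z B' ω e' n') (hee : (nx ω)^[n] e = (nx ω)^[n'] e') :
    e = e' := by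
  have key : ∀ (e e' : Ed) (n n' : ℕ) (B B' : Set (ℤ × ℤ)), Seg z B ω e n → Seg z B' ω e' n' →
      n ≤ n' → (nx ω)^[n] e = (nx ω)^[n'] e' → e = e' := by
    intro e e' n n' B B' h h' hle hee
    have h1 : e = (nx ω)^[n' - n] e' := by
      apply (s_nx ω).1.iterate n
      rw [hee, ← Function.iterate_add_apply, Nat.add_sub_cancel' hle]
    rcases Nat.eq_zero_or_pos (n' - n) with h2 | h2
    · rw [h1, h2]; rfl
    · exact absurd (h1 ▸ h.left) (h'.mid _ h2 (by have := h.pos; omega))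
  rcases le_total n n' with hle | hle
  · exact key e e' n n' B B' h h' hle hee
  · exact (key e' e n' n B' B h' h hle hee.symm).symm

/-- An orbit leaves a finite set of squares or returns. -/
theorem exit_or_return {ω : Cfg} {B : Set (ℤ × ℤ)} (hB : B.Finite) (e : Ed) :
    (∃ k, 1 ≤ k ∧ (nx ω)^[k] e = e) ∨ ∃ k, hdv ((nx ω)^[k] e) ∉ B := by
  by_contra hcon
  push Not at hcon
  obtain ⟨h1, h2⟩ := hcon
  have hfin : {e : Ed | hdv e ∈ B}.Finite := finite_hdv hB
  have := hfin.to_subtype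
  have hinj : Function.Injective fun n : ℕ => (⟨(nx ω)^[n] e, h2 n⟩ : {e : Ed | hdv e ∈ B}) := by
    intro m n hmn
    have hmn' : (nx ω)^[m] e = (nx ω)^[n] e := congrArg Subtype.val hmn
    have key : ∀ m n : ℕ, m < n → (nx ω)^[m] e = (nx ω)^[n] e → False := by
      intro m n hlt h
      refine h1 (n - m) (by omega) ((s_nx ω).1.iterate m ?_)
      rw [← Function.iterate_add_apply, Nat.add_sub_cancel' hlt.le, h]
    rcases lt_trichotomy m n with h | h | h
    · exact (key m n h hmn').elim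
    · exact h
    · exact (key n m h hmn'.symm).elim
  exact not_injective_infinite_finite _ hinj

/-- The partner of an edge of the slit which goes down: the next edge to the right. -/
def par : Ed → Ed
  | Sum.inl v => Sum.inl v
  | Sum.inr v => Sum.inr (v.1 + 1, v.2)

/-- **T1.** If no strand in the finite set `B` of squares joins the two sides of the slit, then the
tip is joined in the corner graph to the outside of `B`. -/
theorem conn_of_not_FF {z : ℤ × ℤ} (hz : Even (z.1 + z.2)) {B : Set (ℤ × ℤ)} (hB : B.Finite)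
    {ω : Cfg} (h : ¬ FF z B ω) : ∃ v ∉ B, ∃ s, CConn (Sl z) B ω (z, z) (v, s) := by
  classical
  by_contra hcon
  push Not at hcon
  -- the edges of the upper side reached from the tip
  let U : Set Ed := {e | e ∈ Sl z ∧ z.2 ≤ (hdv e).2 ∧ CConn (Sl z) B ω (z, z) (hdv e, ls e)}
  have hUB : ∀ e ∈ U, hdv e ∈ B := fun e he => by
    by_contra hn
    exact hcon _ hn _ he.2.2
  -- the first return
  have hret : ∀ e ∈ U, ∃ n, Seg z B ω e n := by
    intro e he
    have hex : ∃ k, 1 ≤ k ∧ ((nx ω)^[k] e ∈ Sl z ∨ hdv ((nx ω)^[k] e) ∉ B) := by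
      rcases exit_or_return (ω := ω) hB e with ⟨k, hk, hk'⟩ | ⟨k, hk⟩
      · exact ⟨k, hk, Or.inl (by rw [hk']; exact he.1)⟩
      · rcases Nat.eq_zero_or_pos k with rfl | h0
        · exact absurd (hUB e he) hk
        · exact ⟨k, h0, Or.inr hk⟩
    obtain ⟨n, hn⟩ : ∃ n, n = Nat.find hex := ⟨_, rfl⟩
    have h1 := Nat.find_spec hex
    have h2 : ∀ i, 1 ≤ i → i < n → (nx ω)^[i] e ∉ Sl z ∧ hdv ((nx ω)^[i] e) ∈ B := by
      intro i hi hi'
      have := Nat.find_min hex (hn ▸ hi')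
      push Not at this
      exact this hi
    rw [← hn] at h1
    have hbox : ∀ i < n, hdv ((nx ω)^[i] e) ∈ B := by
      intro i hi
      rcases Nat.eq_zero_or_pos i with rfl | h0
      · exact hUB e he
      · exact (h2 i h0 hi).2
    have hmid : ∀ i, 0 < i → i < n → (nx ω)^[i] e ∉ Sl z := fun i hi hi' => (h2 i hi hi').1
    by_cases h4 : (nx ω)^[n] e ∈ Sl z
    · exact ⟨n, h1.1, he.1, h4, hmid, hbox⟩
    · exfalso
      rcases h1.2 with h3 | h3
      · exact h4 h3
      · exact hcon _ h3 _ (he.2.2.trans ((conn_along hbox hmid h1.1).tail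
          (.turn h4 (Or.inl rfl))))
  choose! N hN using hret
  -- the return edge goes down
  have hdown : ∀ e ∈ U, ∃ x, z.1 ≤ x ∧ (nx ω)^[N e] e = Sum.inr (x, z.2 - 1) ∧
      Even (x + (z.2 - 1)) := by
    intro e he
    obtain ⟨x, hx, hx'⟩ := (hN e he).right
    refine ⟨x, hx, hx', ?_⟩
    by_contra hp
    refine h ⟨e, N e, hN e he, fun h6 => ?_⟩
    have h7 := h6.1 he.2.1
    rw [hx'] at h7
    simp only [tlv, hp, if_false] at h7
    omega
  have hF : ∀ e ∈ U, par ((nx ω)^[N e] e) ∈ U := by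
    intro e he
    obtain ⟨x, hx, hx', hp⟩ := hdown e he
    have h5 := conn_along (K := Sl z) (hN e he).box (hN e he).mid (hN e he).pos
    rw [hx'] at h5 ⊢
    have hp1 : ¬ Even (x + 1 + (z.2 - 1)) := by rwa [ev1, not_not]
    have hp2 : ¬ Even (x + z.2) := by
      have : x + z.2 = x + (z.2 - 1) + 1 := by ring
      rw [this, Int.even_add_one, not_not]
      exact hp
    have e1 : z.2 - 1 + 1 = z.2 := by ring
    have h6 : tlv (Sum.inr (x, z.2 - 1)) = (x, z.2) := by
      simp only [tlv, hp, if_true, e1]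
    have h7 : ls (Sum.inr (x, z.2 - 1)) = (x + 1, z.2) := by
      simp only [ls, hp, if_true, e1]
    have h8 : hdv (Sum.inr (x + 1, z.2 - 1)) = (x + 1, z.2) := by
      simp only [hdv, hp1, if_false, e1]
    have h9 : ls (Sum.inr (x + 1, z.2 - 1)) = (x + 1, z.2) := by
      simp only [ls, hp1, if_false, e1]
    rw [h6, h7] at h5
    refine ⟨inr_mem_Sl.2 ⟨by show z.1 ≤ x + 1; omega, rfl⟩, ?_, ?_⟩
    · show z.2 ≤ (hdv (Sum.inr (x + 1, z.2 - 1))).2
      rw [h8]
    · show CConn (Sl z) B ω (z, z) (hdv (Sum.inr (x + 1, z.2 - 1)), ls (Sum.inr (x + 1, z.2 - 1)))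
      rw [h8, h9]
      refine (he.2.2.trans h5).tail ?_
      have h10 := CStep.turn' (K := Sl z) (B := B) (ω := ω) (e := Sum.inl (x, z.2))
        (s := (x + 1, z.2)) inl_notMem_Sl (Or.inl (by simp only [ls, hp2, if_false]))
      simpa only [hdv, tlv, hp2, if_false] using h10
  have hUfin : U.Finite := by
    have hfin : {e : Ed | hdv e ∈ B}.Finite := finite_hdv hB
    exact hfin.subset fun e he => hUB e he
  have := hUfin.to_subtype
  let F : U → U := fun e => ⟨par ((nx ω)^[N e.1] e.1), hF e.1 e.2⟩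
  have hinj : Function.Injective F := by
    rintro ⟨e, he⟩ ⟨e', he'⟩ hee
    have h1 : par ((nx ω)^[N e] e) = par ((nx ω)^[N e'] e') := congrArg Subtype.val hee
    obtain ⟨x, hx, hx', _⟩ := hdown e he
    obtain ⟨y, hy, hy', _⟩ := hdown e' he'
    rw [hx', hy'] at h1
    have h2 : (nx ω)^[N e] e = (nx ω)^[N e'] e' := by
      rw [hx', hy']
      simp only [par, Sum.inr.injEq, Prod.mk.injEq, add_left_inj, and_true] at h1
      rw [h1]
    exact Subtype.ext ((hN e he).eq_of_eq (hN e' he') h2)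
  have hsurj := Finite.surjective_of_injective hinj
  have e1 : z.2 - 1 + 1 = z.2 := by ring
  have hp0 : ¬ Even (z.1 + (z.2 - 1)) := by rwa [ev4, not_not]
  have h0 : (Sum.inr (z.1, z.2 - 1) : Ed) ∈ U := by
    refine ⟨inr_mem_Sl.2 ⟨le_rfl, rfl⟩, ?_, ?_⟩
    · simp only [hdv, hp0, if_false]; omega
    · simp only [hdv, ls, hp0, if_false, e1]
      exact Relation.ReflTransGen.refl
  obtain ⟨⟨e, he⟩, hee⟩ := hsurj ⟨_, h0⟩
  have h1 : par ((nx ω)^[N e] e) = Sum.inr (z.1, z.2 - 1) := congrArg Subtype.val hee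
  obtain ⟨x, hx, hx', _⟩ := hdown e he
  rw [hx'] at h1
  simp only [par, Sum.inr.injEq, Prod.mk.injEq, and_true] at h1
  omega

end Vale.Agent.P167.H662
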