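import Vale.Agent.P167.H662.Tip
import Vale.Agent.P167.H166.Arc

/-!
# P167, block START: the potential of a segment which joins two edges of the slit
-/

namespace Vale.Agent.P167.H662

open Finset Vale.Agent.P145.FB
open Vale.Agent.P167.H166 (nx_step)

/-- Sign of a horizontal edge above the site `s`. -/
def hp (f : Ed) (s : ℤ × ℤ) : ℤ :=
  match f with
  | Sum.inl v => if v.1 + 1 = s.1 ∧ s.2 ≤ v.2 then sg (Sum.inl v) else 0
  | Sum.inr _ => 0

/-- Sign of a horizontal edge below the site `s`. -/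
def hm (f : Ed) (s : ℤ × ℤ) : ℤ :=
  match f with
  | Sum.inl v => if v.1 + 1 = s.1 ∧ v.2 < s.2 then sg (Sum.inl v) else 0
  | Sum.inr _ => 0

section

variable (ω : Cfg) (e : Ed) (n : ℕ)

/-- Flux of the segment into a set of squares. -/
theorem flux (χ : ℤ × ℤ → ℤ) (hn : 1 ≤ n) :
    ∑ i ∈ range (n - 1), (χ (hdv ((nx ω)^[i + 1] e)) - χ (tlv ((nx ω)^[i + 1] e))) =
      χ (tlv ((nx ω)^[n] e)) - χ (hdv e) := by
  have h1 : ∀ i, tlv ((nx ω)^[i + 1] e) = hdv ((nx ω)^[i] e) := fun i => by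
    rw [Function.iterate_succ_apply', tlv_nx]
  simp only [h1]
  rw [Finset.sum_range_sub (fun i => χ (hdv ((nx ω)^[i] e)))]
  obtain ⟨m, rfl⟩ : ∃ m, n = m + 1 := ⟨n - 1, by omega⟩
  rw [h1]
  rfl

/-- Number of the passages through the edge `f`, the ends of the segment excluded. -/
def cnt (f : Ed) : ℤ := ∑ i ∈ range (n - 1), if (nx ω)^[i + 1] e = f then 1 else 0

/-- The potential of the segment at the corner `(v, s)`. -/
def pot (z v s : ℤ × ℤ) : ℤ :=
  if z.2 ≤ v.2 then ∑ i ∈ range (n - 1), hp ((nx ω)^[i + 1] e) s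
  else - ∑ i ∈ range (n - 1), hm ((nx ω)^[i + 1] e) s

end

theorem edge1 (f : Ed) (a b : ℤ) :
    (if (hdv f).1 = a ∧ b ≤ (hdv f).2 then (1 : ℤ) else 0) -
      (if (tlv f).1 = a ∧ b ≤ (tlv f).2 then 1 else 0) =
    hp f (a, b) - hp f (a + 1, b) + sg (Sum.inr (a, b - 1)) * (if f = Sum.inr (a, b - 1) then 1 else 0) := by
  rcases f with ⟨x, y⟩ | ⟨x, y⟩ <;> by_cases h : Even (x + y) <;>
    simp only [hdv, tlv, hp, sg, h, if_true, if_false, Sum.inr.injEq, Prod.mk.injEq, reduceCtorEq] <;>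
    rw [Int.even_iff] at h <;> (try simp only [Int.even_iff]) <;> split_ifs <;> omega

theorem edge2 (f : Ed) (a b : ℤ) :
    (if (hdv f).1 = a ∧ (hdv f).2 < b then (1 : ℤ) else 0) -
      (if (tlv f).1 = a ∧ (tlv f).2 < b then 1 else 0) =
    hm f (a, b) - hm f (a + 1, b) - sg (Sum.inr (a, b - 1)) * (if f = Sum.inr (a, b - 1) then 1 else 0) := by
  rcases f with ⟨x, y⟩ | ⟨x, y⟩ <;> by_cases h : Even (x + y) <;>
    simp only [hdv, tlv, hm, sg, h, if_true, if_false, Sum.inr.injEq, Prod.mk.injEq, reduceCtorEq] <;>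
    rw [Int.even_iff] at h <;> (try simp only [Int.even_iff]) <;> split_ifs <;> omega

theorem edge3 (f : Ed) (a b : ℤ) :
    (if a ≤ (hdv f).1 then (1 : ℤ) else 0) - (if a ≤ (tlv f).1 then 1 else 0) =
    hp f (a, b) + hm f (a, b) := by
  rcases f with ⟨x, y⟩ | ⟨x, y⟩ <;> by_cases h : Even (x + y) <;>
    simp only [hdv, tlv, hp, hm, sg, h, if_true, if_false] <;>
    rw [Int.even_iff] at h <;> split_ifs <;> omega

theorem edge4 (f : Ed) (a b : ℤ) (hf : f ∉ Sl (a, b)) :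
    (if a ≤ (hdv f).1 ∧ b ≤ (hdv f).2 then (1 : ℤ) else 0) -
      (if a ≤ (tlv f).1 ∧ b ≤ (tlv f).2 then 1 else 0) = hp f (a, b) := by
  rcases f with ⟨x, y⟩ | ⟨x, y⟩
  · by_cases h : Even (x + y) <;>
    simp only [hdv, tlv, hp, sg, h, if_true, if_false] <;>
    rw [Int.even_iff] at h <;> split_ifs <;> omega
  · rw [inr_mem_Sl] at hf
    by_cases h : Even (x + y) <;>
    simp only [hdv, tlv, hp, h, if_true, if_false] at hf ⊢ <;>
    rw [Int.even_iff] at h <;> split_ifs <;> omega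

theorem edge5 (f : Ed) (a b : ℤ) : hp f (a, b) - hp f (a, b + 1) =
    sg (Sum.inl (a - 1, b)) * (if f = Sum.inl (a - 1, b) then 1 else 0) := by
  rcases f with ⟨x, y⟩ | ⟨x, y⟩
  · by_cases h : Even (x + y) <;>
      simp only [hp, sg, h, if_true, if_false, Sum.inl.injEq, Prod.mk.injEq] <;>
      rw [Int.even_iff] at h <;> simp only [Int.even_iff] <;> split_ifs <;> omega
  · simp [hp]

theorem edge6 (f : Ed) (a b : ℤ) : hm f (a, b + 1) - hm f (a, b) =
    sg (Sum.inl (a - 1, b)) * (if f = Sum.inl (a - 1, b) then 1 else 0) := by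
  rcases f with ⟨x, y⟩ | ⟨x, y⟩
  · by_cases h : Even (x + y) <;>
      simp only [hm, sg, h, if_true, if_false, Sum.inl.injEq, Prod.mk.injEq] <;>
      rw [Int.even_iff] at h <;> simp only [Int.even_iff] <;> split_ifs <;> omega
  · simp [hm]

section pot

variable {z : ℤ × ℤ} {B : Set (ℤ × ℤ)} {ω : Cfg} {e : Ed} {n : ℕ}

theorem sum_if_cnt (f : Ed) (c : ℤ) :
    ∑ i ∈ range (n - 1), c * (if (nx ω)^[i + 1] e = f then 1 else 0) = c * cnt ω e n f := by
  rw [cnt, mul_sum]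

theorem vdiff (v : ℤ × ℤ) (a b : ℤ) : pot ω e n z v (a, b) - pot ω e n z v (a, b + 1) =
    sg (Sum.inl (a - 1, b)) * cnt ω e n (Sum.inl (a - 1, b)) := by
  unfold pot
  split_ifs
  · rw [← sum_sub_distrib, ← sum_if_cnt]
    exact sum_congr rfl fun i _ => edge5 _ _ _
  · rw [← sum_if_cnt, sub_neg_eq_add, neg_add_eq_sub, ← sum_sub_distrib]
    exact sum_congr rfl fun i _ => edge6 _ _ _

theorem hdiff_up (hn : 1 ≤ n) {v : ℤ × ℤ} (hv : z.2 ≤ v.2) (a b : ℤ) :
    pot ω e n z v (a, b) - pot ω e n z v (a + 1, b) =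
      (if (tlv ((nx ω)^[n] e)).1 = a ∧ b ≤ (tlv ((nx ω)^[n] e)).2 then 1 else 0) -
      (if (hdv e).1 = a ∧ b ≤ (hdv e).2 then 1 else 0) -
      sg (Sum.inr (a, b - 1)) * cnt ω e n (Sum.inr (a, b - 1)) := by
  have h1 := flux ω e n (fun w => if w.1 = a ∧ b ≤ w.2 then 1 else 0) hn
  simp only [edge1, sum_add_distrib, sum_sub_distrib, sum_if_cnt] at h1
  unfold pot
  rw [if_pos hv, if_pos hv]
  linarith

theorem hdiff_dn (hn : 1 ≤ n) {v : ℤ × ℤ} (hv : ¬ z.2 ≤ v.2) (a b : ℤ) :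
    pot ω e n z v (a, b) - pot ω e n z v (a + 1, b) =
      (if (hdv e).1 = a ∧ (hdv e).2 < b then 1 else 0) -
      (if (tlv ((nx ω)^[n] e)).1 = a ∧ (tlv ((nx ω)^[n] e)).2 < b then 1 else 0) -
      sg (Sum.inr (a, b - 1)) * cnt ω e n (Sum.inr (a, b - 1)) := by
  have h1 := flux ω e n (fun w => if w.1 = a ∧ w.2 < b then 1 else 0) hn
  simp only [edge2, sum_sub_distrib, sum_if_cnt] at h1
  unfold pot
  rw [if_neg hv, if_neg hv]
  linarith

theorem hdv_inr (x y : ℤ) : hdv (Sum.inr (x, y - 1)) =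
    if Even (x + (y - 1)) then (x, y - 1) else (x, y) := by
  simp only [hdv, sub_add_cancel]

theorem tlv_inr (x y : ℤ) : tlv (Sum.inr (x, y - 1)) =
    if Even (x + (y - 1)) then (x, y) else (x, y - 1) := by
  simp only [tlv, sub_add_cancel]

/-- The potential across the edge `f`, seen from its head. -/
theorem Seg.jump_in (h : Seg z B ω e n) (f : Ed) : pot ω e n z (hdv f) (ls f) =
    pot ω e n z (hdv f) (rs f) - (cnt ω e n f + if e = f then 1 else 0) := by
  obtain ⟨x0, hx0, he⟩ := h.left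
  obtain ⟨x1, hx1, he1⟩ := h.right
  have k0 : hdv e = if Even (x0 + (z.2 - 1)) then (x0, z.2 - 1) else (x0, z.2) := by
    rw [he, hdv_inr]
  have k1 : tlv ((nx ω)^[n] e) = if Even (x1 + (z.2 - 1)) then (x1, z.2) else (x1, z.2 - 1) := by
    rw [he1, tlv_inr]
  have k2 : ∀ f, (e = f) = (Sum.inr (x0, z.2 - 1) = f) := fun f => by rw [he]
  rcases f with ⟨a, b⟩ | ⟨a, b⟩
  · have h1 := vdiff (z := z) (ω := ω) (e := e) (n := n) (hdv (Sum.inl (a, b))) (a + 1) b
    rw [add_sub_cancel_right] at h1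
    simp only [k2, reduceCtorEq, if_false, add_zero]
    by_cases hp : Even (a + b) <;>
      simp only [hdv, ls, rs, sg, hp, if_true, if_false] at h1 ⊢ <;> linarith
  · simp only [k2, Sum.inr.injEq, Prod.mk.injEq]
    by_cases hv : z.2 ≤ (hdv (Sum.inr (a, b))).2
    · have h1 := hdiff_up (ω := ω) (e := e) h.pos hv a (b + 1)
      rw [add_sub_cancel_right, k0, k1] at h1
      by_cases hp : Even (a + b) <;> by_cases hp0 : Even (x0 + (z.2 - 1)) <;>
        by_cases hp1 : Even (x1 + (z.2 - 1)) <;>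
        simp only [hdv, ls, rs, sg, hp, hp0, hp1, if_true, if_false] at h1 hv ⊢ <;>
        rw [Int.even_iff] at hp hp0 hp1 <;> split_ifs at h1 ⊢ <;> omega
    · have h1 := hdiff_dn (ω := ω) (e := e) h.pos hv a (b + 1)
      rw [add_sub_cancel_right, k0, k1] at h1
      by_cases hp : Even (a + b) <;> by_cases hp0 : Even (x0 + (z.2 - 1)) <;>
        by_cases hp1 : Even (x1 + (z.2 - 1)) <;>
        simp only [hdv, ls, rs, sg, hp, hp0, hp1, if_true, if_false] at h1 hv ⊢ <;>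
        rw [Int.even_iff] at hp hp0 hp1 <;> split_ifs at h1 ⊢ <;> omega

/-- The potential across the edge `f`, seen from its tail. -/
theorem Seg.jump_out (h : Seg z B ω e n) (f : Ed) : pot ω e n z (tlv f) (ls f) =
    pot ω e n z (tlv f) (rs f) - (cnt ω e n f + if (nx ω)^[n] e = f then 1 else 0) := by
  obtain ⟨x0, hx0, he⟩ := h.left
  obtain ⟨x1, hx1, he1⟩ := h.right
  have k0 : hdv e = if Even (x0 + (z.2 - 1)) then (x0, z.2 - 1) else (x0, z.2) := by
    rw [he, hdv_inr]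
  have k1 : tlv ((nx ω)^[n] e) = if Even (x1 + (z.2 - 1)) then (x1, z.2) else (x1, z.2 - 1) := by
    rw [he1, tlv_inr]
  have k2 : ∀ f, ((nx ω)^[n] e = f) = (Sum.inr (x1, z.2 - 1) = f) := fun f => by rw [he1]
  rcases f with ⟨a, b⟩ | ⟨a, b⟩
  · have h1 := vdiff (z := z) (ω := ω) (e := e) (n := n) (tlv (Sum.inl (a, b))) (a + 1) b
    rw [add_sub_cancel_right] at h1
    simp only [k2, reduceCtorEq, if_false, add_zero]
    by_cases hp : Even (a + b) <;>
      simp only [tlv, ls, rs, sg, hp, if_true, if_false] at h1 ⊢ <;> linarith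
  · simp only [k2, Sum.inr.injEq, Prod.mk.injEq]
    by_cases hv : z.2 ≤ (tlv (Sum.inr (a, b))).2
    · have h1 := hdiff_up (ω := ω) (e := e) h.pos hv a (b + 1)
      rw [add_sub_cancel_right, k0, k1] at h1
      by_cases hp : Even (a + b) <;> by_cases hp0 : Even (x0 + (z.2 - 1)) <;>
        by_cases hp1 : Even (x1 + (z.2 - 1)) <;>
        simp only [tlv, ls, rs, sg, hp, hp0, hp1, if_true, if_false] at h1 hv ⊢ <;>
        rw [Int.even_iff] at hp hp0 hp1 <;> split_ifs at h1 ⊢ <;> omega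
    · have h1 := hdiff_dn (ω := ω) (e := e) h.pos hv a (b + 1)
      rw [add_sub_cancel_right, k0, k1] at h1
      by_cases hp : Even (a + b) <;> by_cases hp0 : Even (x0 + (z.2 - 1)) <;>
        by_cases hp1 : Even (x1 + (z.2 - 1)) <;>
        simp only [tlv, ls, rs, sg, hp, hp0, hp1, if_true, if_false] at h1 hv ⊢ <;>
        rw [Int.even_iff] at hp hp0 hp1 <;> split_ifs at h1 ⊢ <;> omega

theorem cnt_in (hn : 1 ≤ n) (f : Ed) : cnt ω e n f + (if e = f then 1 else 0) =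
    ∑ i ∈ range n, if (nx ω)^[i] e = f then (1 : ℤ) else 0 := by
  obtain ⟨m, rfl⟩ : ∃ m, n = m + 1 := ⟨n - 1, by omega⟩
  rw [sum_range_succ']
  rfl

theorem cnt_out (hn : 1 ≤ n) (f : Ed) : cnt ω e n f + (if (nx ω)^[n] e = f then 1 else 0) =
    ∑ i ∈ range n, if (nx ω)^[i + 1] e = f then (1 : ℤ) else 0 := by
  obtain ⟨m, rfl⟩ : ∃ m, n = m + 1 := ⟨n - 1, by omega⟩
  rw [sum_range_succ]
  rfl

/-- The potential does not change across an open square. -/
theorem Seg.cross (h : Seg z B ω e n) {v s s' : ℤ × ℤ} (hv : ω v = true)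
    (hs : Even (s.1 + s.2)) (hss : PStep {v} s s') : pot ω e n z v s = pot ω e n z v s' := by
  obtain ⟨f, hf, hf'⟩ := (H166.exists_edge hss).1 hs
  have h1 := h.jump_in f
  have h2 := h.jump_out (nx ω f)
  have hv' : ω (hdv f) = true := by rw [hf]; exact hv
  have h3 := (nx_step ω f).1 hv'
  rw [tlv_nx, h3.2, cnt_out h.pos] at h2
  rw [cnt_in h.pos] at h1
  have h4 : s' = ls (nx ω f) := by
    refine H166.opp hss ?_
    have := h3.1
    rwa [hf, hf'] at this
  have h5 : ∀ i, ((nx ω)^[i + 1] e = nx ω f) = ((nx ω)^[i] e = f) := fun i => by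
    rw [Function.iterate_succ_apply']
    exact propext (s_nx ω).1.eq_iff
  simp only [h5] at h2
  rw [hf] at h1 h2
  rw [← hf', h4, h1, h2]

/-- The potential does not change when one turns around a site off the slit. -/
theorem Seg.turn (h : Seg z B ω e n) {f : Ed} (hf : f ∉ Sl z) {s : ℤ × ℤ}
    (hs : s = ls f ∨ s = rs f) : pot ω e n z (tlv f) s = pot ω e n z (hdv f) s := by
  by_cases hb : z.2 ≤ (tlv f).2 ↔ z.2 ≤ (hdv f).2
  · unfold pot
    rw [if_congr hb rfl rfl]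
  · have hs1 : s.1 ≤ z.1 := by
      rcases f with ⟨a, b⟩ | ⟨a, b⟩
      · exfalso
        apply hb
        by_cases hp : Even (a + b) <;> simp [hdv, tlv, hp]
      · rw [inr_mem_Sl] at hf
        by_cases hp : Even (a + b) <;>
          simp only [hdv, tlv, ls, rs, hp, if_true, if_false] at hb hs hf <;>
          rcases hs with rfl | rfl <;> dsimp only <;> omega
    obtain ⟨x0, hx0, he⟩ := h.left
    obtain ⟨x1, hx1, he1⟩ := h.right
    have k0 : s.1 ≤ (hdv e).1 := by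
      rw [he, hdv_inr]
      split_ifs <;> dsimp only <;> omega
    have k1 : s.1 ≤ (tlv ((nx ω)^[n] e)).1 := by
      rw [he1, tlv_inr]
      split_ifs <;> dsimp only <;> omega
    have h1 := flux ω e n (fun w => if s.1 ≤ w.1 then 1 else 0) h.pos
    simp only [edge3 _ s.1 s.2, Prod.mk.eta, k0, k1, if_true, sub_self, sum_add_distrib] at h1
    unfold pot
    by_cases h2 : z.2 ≤ (tlv f).2 <;> by_cases h3 : z.2 ≤ (hdv f).2 <;>
      simp only [h2, h3, if_true, if_false] <;> linarith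

/-- The potential at the tip. -/
theorem Seg.tip (h : Seg z B ω e n) {v : ℤ × ℤ} (hv : z.2 ≤ v.2) : pot ω e n z v z =
    (if z.2 ≤ (tlv ((nx ω)^[n] e)).2 then 1 else 0) - (if z.2 ≤ (hdv e).2 then 1 else 0) := by
  obtain ⟨x0, hx0, he⟩ := h.left
  obtain ⟨x1, hx1, he1⟩ := h.right
  have h1 := flux ω e n (fun w => if z.1 ≤ w.1 ∧ z.2 ≤ w.2 then 1 else 0) h.pos
  have h2 : ∀ i ∈ range (n - 1), ((fun w : ℤ × ℤ => if z.1 ≤ w.1 ∧ z.2 ≤ w.2 then (1 : ℤ) else 0)
      (hdv ((nx ω)^[i + 1] e)) - (fun w : ℤ × ℤ => if z.1 ≤ w.1 ∧ z.2 ≤ w.2 then (1 : ℤ) else 0)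
      (tlv ((nx ω)^[i + 1] e))) = hp ((nx ω)^[i + 1] e) z := by
    intro i hi
    rw [mem_range] at hi
    exact edge4 _ z.1 z.2 (h.mid (i + 1) (by omega) (by omega))
  rw [sum_congr rfl h2] at h1
  unfold pot
  rw [if_pos hv, h1]
  have k0 : z.1 ≤ (hdv e).1 := by
    rw [he, hdv_inr]
    split_ifs <;> exact hx0
  have k1 : z.1 ≤ (tlv ((nx ω)^[n] e)).1 := by
    rw [he1, tlv_inr]
    split_ifs <;> exact hx1
  simp only [k0, k1, true_and]

theorem Seg.tip_ne (h : Seg z B ω e n) (hff : ¬ (z.2 ≤ (hdv e).2 ↔ z.2 ≤ (tlv ((nx ω)^[n] e)).2))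
    {v : ℤ × ℤ} (hv : z.2 ≤ v.2) : pot ω e n z v z ≠ 0 := by
  rw [h.tip hv]
  split_ifs <;> omega

/-- `s` is a corner of the square `v`. -/
def IsC (v s : ℤ × ℤ) : Prop := (s.1 = v.1 ∨ s.1 = v.1 + 1) ∧ (s.2 = v.2 ∨ s.2 = v.2 + 1)

/-- The potential vanishes outside of a box which contains the segment. -/
theorem Seg.out (h : Seg z B ω e n) {a b c d : ℤ}
    (hB : ∀ i < n, a ≤ (hdv ((nx ω)^[i] e)).1 ∧ (hdv ((nx ω)^[i] e)).1 ≤ b ∧
      c ≤ (hdv ((nx ω)^[i] e)).2 ∧ (hdv ((nx ω)^[i] e)).2 ≤ d) {v s : ℤ × ℤ} (hvs : IsC v s)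
    (hv : ¬ (a ≤ v.1 ∧ v.1 ≤ b ∧ c ≤ v.2 ∧ v.2 ≤ d)) : pot ω e n z v s = 0 := by
  obtain ⟨x0, hx0, he⟩ := h.left
  have hb0 := hB 0 h.pos
  rw [Function.iterate_zero, id, he, hdv_inr] at hb0
  have key : ∀ i ∈ range (n - 1),
      (z.2 ≤ v.2 → hp ((nx ω)^[i + 1] e) s = 0) ∧ (¬ z.2 ≤ v.2 → hm ((nx ω)^[i + 1] e) s = 0) := by
    intro i hi
    rw [mem_range] at hi
    have h1 := hB i (by omega)
    have h2 := hB (i + 1) (by omega)
    have h3 : tlv ((nx ω)^[i + 1] e) = hdv ((nx ω)^[i] e) := by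
      rw [Function.iterate_succ_apply', tlv_nx]
    rw [← h3] at h1
    obtain ⟨g, hg⟩ : ∃ g, g = (nx ω)^[i + 1] e := ⟨_, rfl⟩
    rw [← hg] at h1 h2 ⊢
    obtain ⟨hs1, hs2⟩ := hvs
    rcases g with ⟨x, y⟩ | ⟨x, y⟩
    · refine ⟨fun hz => ?_, fun hz => ?_⟩
      · simp only [hp]
        rw [if_neg]
        rintro ⟨h4, h5⟩
        apply hv
        by_cases hp : Even (x + y) <;> simp only [hdv, tlv, hp, if_true, if_false] at h1 h2 <;>
          split_ifs at hb0 <;> dsimp only at h4 h5 hb0 <;> omega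
      · simp only [hm]
        rw [if_neg]
        rintro ⟨h4, h5⟩
        apply hv
        by_cases hp : Even (x + y) <;> simp only [hdv, tlv, hp, if_true, if_false] at h1 h2 <;>
          split_ifs at hb0 <;> dsimp only at h4 h5 hb0 <;> omega
    · exact ⟨fun _ => rfl, fun _ => rfl⟩
  unfold pot
  split_ifs with hz
  · exact sum_eq_zero fun i hi => (key i hi).1 hz
  · rw [sum_eq_zero fun i hi => (key i hi).2 hz, neg_zero]

/-- Corner steps preserve the corners and the potential. -/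
theorem Seg.cstep (h : Seg z B ω e n) {B' : Set (ℤ × ℤ)} {c c' : (ℤ × ℤ) × (ℤ × ℤ)}
    (hc : CStep (Sl z) B' ω c c') (hi : IsC c.1 c.2) :
    IsC c'.1 c'.2 ∧ pot ω e n z c.1 c.2 = pot ω e n z c'.1 c'.2 := by
  cases hc with
  | @turn f s hf hs =>
    refine ⟨?_, h.turn hf hs⟩
    rcases hs with rfl | rfl
    · exact ⟨(H166.corner f).1, (H166.corner f).2.1⟩
    · exact ⟨(H166.corner f).2.2.1, (H166.corner f).2.2.2.1⟩
  | @turn' f s hf hs =>
    refine ⟨?_, (h.turn hf hs).symm⟩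
    rcases f with ⟨a, b⟩ | ⟨a, b⟩ <;> by_cases hp : Even (a + b) <;>
      simp only [ls, rs, hp, if_true, if_false] at hs <;>
      rcases hs with rfl | rfl <;> simp [IsC, tlv, hp]
  | @cross v s s' hv ho he hs =>
    refine ⟨?_, h.cross ho he hs⟩
    obtain ⟨h1, h2, h3⟩ := hs
    rw [Set.mem_singleton_iff] at h3
    unfold IsC
    rw [← h3]
    dsimp only
    omega

theorem Seg.cconn (h : Seg z B ω e n) {B' : Set (ℤ × ℤ)} {c c' : (ℤ × ℤ) × (ℤ × ℤ)}
    (hc : CConn (Sl z) B' ω c c') (hi : IsC c.1 c.2) :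
    IsC c'.1 c'.2 ∧ pot ω e n z c.1 c.2 = pot ω e n z c'.1 c'.2 := by
  induction hc with
  | refl => exact ⟨hi, rfl⟩
  | tail _ h2 ih =>
    have h3 := h.cstep h2 ih.1
    exact ⟨h3.1, ih.2.trans h3.2⟩

/-- The potential of the corners of a square which is not visited. -/
theorem Seg.flat (h : Seg z B ω e n) {v : ℤ × ℤ} (hv : ∀ i < n, hdv ((nx ω)^[i] e) ≠ v) {f : Ed}
    (hf : hdv f = v ∨ tlv f = v) : pot ω e n z v (ls f) = pot ω e n z v (rs f) := by
  rcases hf with rfl | rfl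
  · have h1 := h.jump_in f
    rw [cnt_in h.pos] at h1
    rw [h1, sub_eq_self]
    refine sum_eq_zero fun i hi => if_neg fun h2 => ?_
    exact hv i (mem_range.1 hi) (by rw [h2])
  · have h1 := h.jump_out f
    rw [cnt_out h.pos] at h1
    rw [h1, sub_eq_self]
    refine sum_eq_zero fun i hi => if_neg fun h2 => ?_
    refine hv i (mem_range.1 hi) ?_
    rw [← h2, Function.iterate_succ_apply', tlv_nx]

theorem Seg.flat_corner (h : Seg z B ω e n) {v : ℤ × ℤ}
    (hv : ∀ i < n, hdv ((nx ω)^[i] e) ≠ v) :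
    pot ω e n z v (v.1 + 1, v.2) = pot ω e n z v v ∧
      pot ω e n z v (v.1, v.2 + 1) = pot ω e n z v v := by
  obtain ⟨a, b⟩ := v
  constructor
  · have h1 := h.flat hv (f := Sum.inr (a, b - 1)) (by
      by_cases hp : Even (a + (b - 1)) <;> simp [hdv, tlv, hp])
    by_cases hp : Even (a + (b - 1)) <;>
      simp only [ls, rs, hp, if_true, if_false, sub_add_cancel] at h1
    · exact h1
    · exact h1.symm
  · have h1 := h.flat hv (f := Sum.inl (a - 1, b)) (by
      by_cases hp : Even (a - 1 + b) <;> simp [hdv, tlv, hp])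
    by_cases hp : Even (a - 1 + b) <;>
      simp only [ls, rs, hp, if_true, if_false, sub_add_cancel] at h1
    · exact h1
    · exact h1.symm

/-- The potential above the line is constant on a box which is not visited. -/
theorem Seg.flat_box (h : Seg z B ω e n) {r : ℤ}
    (hv : ∀ i < n, r < nm (hdv ((nx ω)^[i] e) - z)) {s : ℤ × ℤ} (hs : nm (s - z) ≤ r)
    (hsz : z.2 ≤ s.2) : pot ω e n z z s = pot ω e n z z z := by
  have hup : ∀ v s : ℤ × ℤ, z.2 ≤ v.2 → pot ω e n z v s = pot ω e n z z s := by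
    intro v s hv
    unfold pot
    rw [if_pos hv, if_pos le_rfl]
  have hr : 0 ≤ r := le_trans (le_max_of_le_left (abs_nonneg _)) hs
  rw [H166.nm_le] at hs
  simp only [Prod.fst_sub, Prod.snd_sub] at hs
  have hstep : ∀ a b : ℤ, z.1 - r ≤ a → a ≤ z.1 + r → z.2 ≤ b → b ≤ z.2 + r →
      pot ω e n z z (a + 1, b) = pot ω e n z z (a, b) ∧
      pot ω e n z z (a, b + 1) = pot ω e n z z (a, b) := by
    intro a b h1 h2 h3 h4
    have h5 := h.flat_corner (v := (a, b)) (fun i hi h6 => by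
      have h7 := hv i hi
      rw [h6] at h7
      have h8 : nm ((a, b) - z) ≤ r := by
        rw [H166.nm_le]
        simp only [Prod.fst_sub, Prod.snd_sub]
        omega
      omega)
    rwa [hup (a, b) _ h3, hup (a, b) _ h3, hup (a, b) _ h3] at h5
  -- vertical
  have h1 : pot ω e n z z s = pot ω e n z z (s.1, z.2) := by
    have key : ∀ b, z.2 ≤ b → b ≤ s.2 → pot ω e n z z (s.1, b) = pot ω e n z z (s.1, z.2) := by
      intro b hb
      induction b, hb using Int.leInduction with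
      | base => intro _; rfl
      | succ b hb ih =>
        intro h2
        rw [(hstep s.1 b (by omega) (by omega) hb (by omega)).2]
        exact ih (by omega)
    exact key s.2 hsz le_rfl
  rw [h1]
  have key : ∀ a, z.1 - r ≤ a → a ≤ z.1 + r + 1 →
      pot ω e n z z (a, z.2) = pot ω e n z z (z.1 - r, z.2) := by
    intro a ha
    induction a, ha using Int.leInduction with
    | base => intro _; rfl
    | succ a ha ih =>
      intro h2
      rw [(hstep a z.2 (by omega) (by omega) le_rfl (by omega)).1]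
      exact ih (by omega)
  rw [key s.1 (by omega) (by omega)]
  have := key z.1 (by omega) (by omega)
  rw [Prod.mk.eta] at this
  exact this.symm

/-- The potential is constant along open paths above the line. -/
theorem Seg.path (h : Seg z B ω e n) {Rg : Set (ℤ × ℤ)} (hR : ∀ w ∈ Rg, z.2 ≤ w.2)
    {y y' : ℤ × ℤ} (hy : Even (y.1 + y.2)) (hp : PConn (op ω) Rg y y') :
    pot ω e n z z y = pot ω e n z z y' := by
  have hup : ∀ v s : ℤ × ℤ, z.2 ≤ v.2 → pot ω e n z v s = pot ω e n z z s := by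
    intro v s hv
    unfold pot
    rw [if_pos hv, if_pos le_rfl]
  obtain ⟨h0, h1⟩ := hp
  induction h1 with
  | refl => rfl
  | @tail x x' hx hxx ih =>
    rw [ih]
    have hx0 := (show PConn (op ω) Rg y x from ⟨h0, hx⟩).right_mem
    have hpar := (show PConn (op ω) Rg y x from ⟨h0, hx⟩).parity
    have hv : ω (min x.1 x'.1, min x.2 x'.2) = true := hxx.1.2.2
    have h2 := h.cross hv (s := x) (s' := x') (by
      rw [Int.even_iff] at hy ⊢; omega) ⟨hxx.1.1, hxx.1.2.1, rfl⟩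
    have h3 : z.2 ≤ (min x.1 x'.1, min x.2 x'.2).2 := le_min (hR _ hx0) (hR _ hxx.2)
    rwa [hup (min x.1 x'.1, min x.2 x'.2) _ h3, hup (min x.1 x'.1, min x.2 x'.2) _ h3] at h2

end pot

/-- No orbit joins the squares at distance at most `r` to the squares at distance larger than `R`. -/
def NoOrb (z : ℤ × ℤ) (r R : ℤ) (ω : Cfg) : Prop :=
  ∀ (e : Ed) (k : ℕ), (nm (hdv e - z) ≤ r → nm (hdv ((nx ω)^[k] e) - z) ≤ R) ∧
    (nm (hdv ((nx ω)^[k] e) - z) ≤ r → nm (hdv e - z) ≤ R)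

/-- **T2, gluing.** The tip is joined to distance `R` in the slit domain, no orbit crosses the
annulus, and an open path above the slit joins distance `r` to distance `L + 1`: then no strand joins the
two sides of the slit inside the box of radius `L`. -/
theorem not_FF_of_glue {z : ℤ × ℤ} {ω : Cfg} {r R L : ℤ}
    (h1 : ∃ v, R < nm (v - z) ∧ ∃ s, CConn (Sl z) {v | nm (v - z) ≤ R} ω (z, z) (v, s))
    (h2 : NoOrb z r R ω)
    (h3 : ∃ y y' : ℤ × ℤ, Even (y.1 + y.2) ∧ nm (y - z) ≤ r ∧ nm (y' - z) = L + 1 ∧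
      PConn (op ω) {w | z.2 ≤ w.2} y y') : ¬ FF z {v | nm (v - z) ≤ L} ω := by
  rintro ⟨e, n, h, hff⟩
  have hne := h.tip_ne hff (v := z) le_rfl
  have hbox : ∀ ρ : ℤ, (∀ i < n, nm (hdv ((nx ω)^[i] e) - z) ≤ ρ) → ∀ v s : ℤ × ℤ, IsC v s →
      ρ < nm (v - z) → pot ω e n z v s = 0 := by
    intro ρ hρ v s hvs hv
    refine h.out (a := z.1 - ρ) (b := z.1 + ρ) (c := z.2 - ρ) (d := z.2 + ρ) (fun i hi => ?_) hvs ?_
    · have := hρ i hi
      rw [H166.nm_le] at this
      simp only [Prod.fst_sub, Prod.snd_sub] at this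
      omega
    · intro hv'
      have : nm (v - z) ≤ ρ := by
        rw [H166.nm_le]
        simp only [Prod.fst_sub, Prod.snd_sub]
        omega
      omega
  by_cases hvis : ∃ i < n, nm (hdv ((nx ω)^[i] e) - z) ≤ r
  · obtain ⟨i, hi, hir⟩ := hvis
    have hall : ∀ j < n, nm (hdv ((nx ω)^[j] e) - z) ≤ R := by
      intro j hj
      rcases le_total i j with hij | hij
      · have := (h2 ((nx ω)^[i] e) (j - i)).1 hir
        rwa [← Function.iterate_add_apply, Nat.sub_add_cancel hij] at this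
      · have := (h2 ((nx ω)^[j] e) (i - j)).2
        rw [← Function.iterate_add_apply, Nat.sub_add_cancel hij] at this
        exact this hir
    obtain ⟨v, hv, s, hc⟩ := h1
    have h4 := h.cconn hc ⟨Or.inl rfl, Or.inl rfl⟩
    exact hne (h4.2.trans (hbox R hall v s h4.1 hv))
  · push Not at hvis
    obtain ⟨y, y', hy, hyr, hyL, hp⟩ := h3
    have hyz : z.2 ≤ y.2 := hp.left_mem
    have hyz' : z.2 ≤ y'.2 := hp.right_mem
    have h4 := h.flat_box hvis hyr hyz
    have h5 := h.path (fun w hw => hw) hy hp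
    have h6 : pot ω e n z y' y' = pot ω e n z z y' := by
      unfold pot
      rw [if_pos hyz', if_pos le_rfl]
    have h7 := hbox L h.box y' y' ⟨Or.inl rfl, Or.inl rfl⟩ (by rw [hyL]; omega)
    exact hne (by rw [← h4, h5, ← h6, h7])

end Vale.Agent.P167.H662
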